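import Vale.Agent.P158.Fork.Tree
import Vale.Agent.P158.Fork.Walks
import Vale.Agent.P158.Spec3
import Vale.Agent.P158.Basic

/-!
Forks as branch points of the geodesic tree from a set of sources into a target.
-/

open MeasureTheory Finset

namespace Vale.Agent.P158.ForkAll

/-- `v` is a fork whose two backward halves meet `S` and whose forward half passes `x`. -/
def Branches (t : Conf) (S : Finset V) (x v : V) : Prop :=
  ∃ γ δ, ∃ n m m' : ℕ, IsBigeodesic t γ ∧ IsBigeodesic t δ ∧ γ 0 = v ∧ (∀ k : ℕ, γ k = δ k) ∧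
    γ (-1) ≠ δ (-1) ∧ γ n = x ∧ 0 < m ∧ 0 < m' ∧ γ (-m) ∈ S ∧ δ (-m') ∈ S

lemma card_branches_le {t : Conf} (htf : TieFree t) (S : Finset V) (x : V) (Fs : Finset V) :
    open Classical in (Fs.filter fun v => Branches t S x v).card ≤ S.card := by
  classical
  set S' := S.filter fun a => ∃ γ, ∃ i j : ℤ, i ≤ j ∧ IsBigeodesic t γ ∧ γ i = a ∧ γ j = x with hS'
  have hex : ∀ a, ∃ (γ : ℤ → V) (j : ℤ) (len : ℕ), a ∈ S' →
      IsBigeodesic t γ ∧ γ (j - len) = a ∧ γ j = x := by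
    intro a
    by_cases ha : a ∈ S'
    · obtain ⟨-, γ, i, j, hij, hg, hi, hj⟩ := mem_filter.1 ha
      exact ⟨γ, j, (j - i).toNat, fun _ => ⟨hg, by rw [← hi]; congr 1; omega, hj⟩⟩
    · exact ⟨fun _ => 0, 0, 0, fun h => absurd h ha⟩
  choose g jx len hg using hex
  set P : V → ℕ → V := fun a k => g a (jx a - k)
  have hagree : Fork.Agree P len (S' : Set V) := by
    intro a ha c hc i j hi hj hac
    obtain ⟨ga, -, ea⟩ := hg a ha
    obtain ⟨gc, -, ec⟩ := hg c hc
    obtain ⟨hij, hk⟩ := Fork.segment_unique htf ga gc (i := jx a - i) (i' := jx c - j) (n := i)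
      (n' := j) hac (by rw [sub_add_cancel, sub_add_cancel, ea, ec])
    refine ⟨hij, fun k hki => ?_⟩
    have := hk (i - k) (Nat.sub_le _ _)
    rw [Nat.cast_sub hki, ← hij] at this
    simp only [P]
    convert this using 2 <;> ring
  obtain ⟨hfin, hle⟩ := Fork.branchSet_finite_card_le P len S' hagree
  refine le_trans ?_ (hle.trans (card_filter_le _ _))
  rw [Set.ncard_eq_toFinset_card _ hfin]
  refine card_le_card fun v hv => ?_
  obtain ⟨-, γ, δ, n, m, m', hγ, hδ, hv0, hcom, hne, hnx, hm, hm', hγm, hδm⟩ := mem_filter.1 hv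
  have leaf : ∀ (η : ℤ → V) (m : ℕ), IsBigeodesic t η → η 0 = v → η n = x → 0 < m → η (-m) ∈ S →
      ∃ a ∈ S', n < len a ∧ P a n = v ∧ P a (n + 1) = η (-1) := by
    intro η m hη h0 hx hm hmem
    have ha : η (-m) ∈ S' := mem_filter.2 ⟨hmem, η, -(m : ℤ), n, by omega, hη, rfl, hx⟩
    refine ⟨_, ha, ?_⟩
    obtain ⟨gx, ga, gw⟩ := hg _ ha
    obtain ⟨hlen, hk⟩ := Fork.segment_unique htf gx hη (i' := -(m : ℤ)) (n' := m + n) ga
      (by rw [sub_add_cancel, gw, ← hx]; congr 1; push_cast; ring)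
    refine ⟨by omega, ?_, ?_⟩
    · have h := hk m (by omega)
      simp only [P]
      rw [← h0]
      convert h using 2 <;> omega
    · have h := hk (m - 1) (by omega)
      simp only [P]
      convert h using 2 <;> omega
  obtain ⟨a, ha, hal, hav, ha1⟩ := leaf γ m hγ hv0 hnx hm hγm
  obtain ⟨c, hc, hcl, hcv, hc1⟩ := leaf δ m' hδ
    ((show γ 0 = δ 0 by simpa using hcom 0).symm.trans hv0) ((hcom n).symm.trans hnx) hm' hδm
  exact hfin.mem_toFinset.2
    ⟨a, ha, c, hc, n, hal, hcl, hav, hcv, by rw [ha1, hc1]; exact hne⟩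

end Vale.Agent.P158.ForkAll
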