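import Vale.Agent.P158.ForkAll.Sites
import Vale.Agent.P158.ForkAll.Branch

/-!
Every fork in the middle of a box is a branch point of many trees with few sources.
-/

open MeasureTheory Finset

namespace Vale.Agent.P158.ForkAll

/-- The constants of the count: the bound `Cs` on slopes, the width factor `Z`, the radius factor
`X` of the targets. -/
structure Consts where
  /-- bound on the slopes -/
  Cs : ℝ
  /-- width of the bands over `ρ b` -/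
  Z : ℝ
  /-- radius of the box of targets over `b` -/
  X : ℕ

/-- The constants belonging to the length bound `Cl b` of the segments. -/
noncomputable def consts (Cl : ℝ) : Consts where
  Cs := Cl + 4
  Z := 120 * (1 + (Cl + 4)) * (1 + 2 * ((⌈Cl⌉₊ + 1 : ℕ) + 4))
  X := ⌈Cl⌉₊ + 1

/-- The frames. -/
def sym (j : Fin 6 × Bool) : LatSym := frameSyms[(j.1 : ℕ)]'(j.1.isLt)

/-- The second frame parameter. -/
def kk (j : Fin 6 × Bool) : ℤ := if j.2 then 1 else 0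

lemma sym_mem (j : Fin 6 × Bool) : sym j ∈ frameSyms := List.getElem_mem _

lemma kk_cases (j : Fin 6 × Bool) : kk j = 0 ∨ kk j = 1 := by
  rcases j with ⟨i, _ | _⟩ <;> simp [kk]

lemma exists_index {σ : LatSym} (hσ : σ ∈ frameSyms) {k : ℤ} (hk : k = 0 ∨ k = 1) :
    ∃ j, sym j = σ ∧ kk j = k := by
  obtain ⟨i, hi, rfl⟩ := List.mem_iff_getElem.1 hσ
  rcases hk with rfl | rfl
  · exact ⟨(⟨i, hi⟩, false), rfl, rfl⟩
  · exact ⟨(⟨i, hi⟩, true), rfl, rfl⟩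

/-- The boundary points in the band of a slope unit at `x`. -/
noncomputable def band (Cl ρ : ℝ) (b : ℕ) (j : Fin 6 × Bool) (u : ℕ) (x : V) : Finset V := by
  classical
  exact (bd (4 * b)).filter fun a =>
    |off (sym j) (kk j) (gridS (consts Cl).Cs ρ u) a x| ≤ (consts Cl).Z * ρ * b

/-- `x` is a target of the fork `v`. -/
def Target (t : Conf) (R : ℕ) (r₁ Cl ρ : ℝ) (b : ℕ) (v x : V) : Prop :=
  ∃ j : Fin 6 × Bool,
    (t ∈ wildEv (sym j) (kk j) R r₁ (consts Cl).Cs ρ b x ∧ Branches t (bd (4 * b)) x v) ∨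
    ∃ u ∈ units (consts Cl).Cs ρ, t ∈ slopeEv (sym j) (kk j) R r₁ (consts Cl).Cs ρ b u x ∧
      |off (sym j) (kk j) (gridS (consts Cl).Cs ρ u) v x| ≤ (consts Cl).Z * ρ * b ∧
      Branches t (band Cl ρ b j u x) x v

/-- Two bigeodesics with common forward half fork at `v`. -/
def ForkV (t : Conf) (v : V) : Prop :=
  ∃ γ δ, IsBigeodesic t γ ∧ IsBigeodesic t δ ∧ γ 0 = v ∧ (∀ n : ℕ, γ n = δ n) ∧ γ (-1) ≠ δ (-1)

/-- A path starting inside a box leaves it. -/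
lemma exists_exit {r : ℕ → V} (hi : Function.Injective r) (ha : ∀ n, Adj (r n) (r (n + 1)))
    {M₀ M : ℤ} (h0 : InSq M₀ (r 0)) (hM : M₀ < M) :
    ∃ e : ℕ, 0 < e ∧ OnBd M (r e) ∧ ∀ m, m ≤ e → InSq M (r m) := by
  classical
  have hex : ∃ n, OnBd M (r n) ∨ ¬ InSq M (r n) := by
    by_contra! hall
    exact Set.infinite_univ ((((Finset.Icc (-M) M ×ˢ Finset.Icc (-M) M).finite_toSet).preimage
      hi.injOn).subset fun n _ => by
        obtain ⟨h1, h2, h3, h4⟩ := (hall n).2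
        simp only [Set.mem_preimage, Finset.mem_coe, Finset.mem_product, Finset.mem_Icc]
        exact ⟨⟨h1, h2⟩, h3, h4⟩)
  set e := Nat.find hex
  have hpos : 0 < e := by
    by_contra! h
    obtain ⟨h1, h2, h3, h4⟩ := h0
    have h5 := Nat.find_spec hex
    rw [show Nat.find hex = 0 by omega] at h5
    simp only [OnBd, InSq] at h5
    omega
  have hbefore : ∀ m, m < e → InSq M (r m) ∧ ¬ OnBd M (r m) := fun m hm => by
    have := Nat.find_min hex hm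
    tauto
  have hin : InSq M (r e) := by
    obtain ⟨h1, h2⟩ := hbefore (e - 1) (by omega)
    have h3 := adj_iff.1 (ha (e - 1))
    rw [show e - 1 + 1 = e by omega] at h3
    simp only [OnBd, InSq] at h1 h2 ⊢
    omega
  refine ⟨e, hpos, (Nat.find_spec hex).resolve_right (not_not.2 hin), fun m hm => ?_⟩
  rcases hm.eq_or_lt with rfl | h
  · exact hin
  · exact (hbefore m h).1

lemma exits {t : Conf} {γ : ℤ → V} (hg : IsBigeodesic t γ) {M₀ M : ℤ} (h0 : InSq M₀ (γ 0))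
    (hM : M₀ < M) :
    (∃ e : ℕ, 0 < e ∧ OnBd M (γ e)) ∧
      ∃ e : ℕ, 0 < e ∧ OnBd M (γ (-(e : ℤ))) ∧
        ∀ m : ℤ, -(e : ℤ) ≤ m → m ≤ 0 → InSq M (γ m) := by
  constructor
  · obtain ⟨e, h1, h2, -⟩ := exists_exit (r := fwd γ 0) (fwd_injective hg 0) (fwd_adj hg 0)
      (by simpa [fwd] using h0) hM
    exact ⟨e, h1, by simpa [fwd] using h2⟩
  · obtain ⟨e, h1, h2, h3⟩ := exists_exit (r := bwd γ 0) (bwd_injective hg 0) (bwd_adj hg 0)
      (by simpa [bwd] using h0) hM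
    refine ⟨e, h1, by simpa [bwd] using h2, fun m hm hm' => ?_⟩
    obtain ⟨n, rfl⟩ : ∃ n : ℕ, m = -(n : ℤ) := ⟨m.natAbs, by omega⟩
    simpa [bwd] using h3 n (by omega)

/-- What the good levels of one line give: many indices of sites on its forward half, each wild
or in a tube. -/
def Arm (t : Conf) (R : ℕ) (r₁ Cl ρ : ℝ) (b : ℕ) (γ : ℤ → V) (e : ℕ) (Iw It : Finset ℕ) : Prop :=
  b ≤ Iw.card + It.card ∧
  (∀ i ∈ Iw, ∃ j, t ∈ wildEv (sym j) (kk j) R r₁ (consts Cl).Cs ρ b (γ i)) ∧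
  (∀ i ∈ It, ∃ j, ∃ u ∈ units (consts Cl).Cs ρ,
    t ∈ slopeEv (sym j) (kk j) R r₁ (consts Cl).Cs ρ b u (γ i) ∧
    ∀ m : ℤ, -(e : ℤ) ≤ m → m ≤ i →
      |off (sym j) (kk j) (gridS (consts Cl).Cs ρ u) (γ m) (γ i)| ≤ 30 * ρ * b) ∧
  ∀ i ∈ Iw ∪ It, (i : ℝ) ≤ Cl * b ∧
    (b ≤ |(γ 0).1 - (γ i).1| ∨ (b : ℤ) ≤ |(γ 0).2 - (γ i).2|)

theorem exists_arm {t : Conf} {γ : ℤ → V} {γ₀ C r₁ ρ : ℝ} {D b R : ℕ} {e : ℕ}
    (hg : IsBigeodesic t γ) (hγ₀ : γ₀ ≤ 1) (hC : 0 ≤ C) (hD : 32 ≤ γ₀ * D)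
    (hρ : 0 < ρ) (hρ1 : ρ ≤ 1) (hR : 2 * R < b)
    (hok : ChordOK γ₀ C r₁ (1 / (2 * D)) R (D * b) t) (hv : InSq b (γ 0))
    (hbox : ∀ m : ℤ, -(e : ℤ) ≤ m → m ≤ 0 → InSq (4 * b) (γ m)) :
    ∃ Iw It, Arm t R r₁ (C * D) ρ b γ e Iw It := by
  classical
  have hD32 : (32 : ℝ) ≤ D := hD.trans (by nlinarith [(Nat.cast_nonneg D : (0 : ℝ) ≤ D)])
  have hD' : 32 ≤ D := by exact_mod_cast hD32
  have hb : 0 < b := by omega
  have hbN : (b : ℤ) < ((D * b : ℕ) : ℤ) := by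
    push_cast
    nlinarith [(by exact_mod_cast hD' : (32 : ℤ) ≤ D), (by exact_mod_cast hb : (0 : ℤ) < b)]
  obtain ⟨⟨e₁, he₁, hb₁⟩, ⟨e₀, he₀, hb₀, -⟩⟩ := exits hg hv hbN
  have hseg : SegGeo t γ (-(e₀ : ℤ)) e₁ :=
    ⟨by omega, fun m _ _ => hg.adj m, hg.inj.injOn, hg.geo _ _ (by omega)⟩
  have hb' : (0 : ℝ) < b := by exact_mod_cast hb
  obtain ⟨hlen, σ, hσ, k, hk, hl₀, hl₁, hbad, -⟩ := hok γ _ _ hseg hb₀ hb₁ ⟨0, by omega, by omega, by
    have h4 : (b : ℤ) ≤ ⌊γ₀ * ((D * b : ℕ) : ℝ) / 8⌋ := by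
      refine Int.le_floor.2 ?_
      push_cast
      nlinarith
    obtain ⟨h1, h2, h3, h5⟩ := hv
    exact ⟨by omega, by omega, by omega, by omega⟩⟩
  push_cast at hl₀ hl₁ hbad hlen
  have hl₀' : lev k (σ.vmap (γ (-(e₀ : ℤ)))) ≤ -(32 * (b : ℤ)) := by
    have : (lev k (σ.vmap (γ (-(e₀ : ℤ)))) : ℝ) ≤ ((-(32 * (b : ℤ)) : ℤ) : ℝ) := by
      push_cast
      nlinarith
    exact_mod_cast this
  have hl₁' : 32 * (b : ℤ) ≤ lev k (σ.vmap (γ e₁)) := by
    have : (((32 * (b : ℤ)) : ℤ) : ℝ) ≤ (lev k (σ.vmap (γ e₁)) : ℝ) := by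
      push_cast
      nlinarith
    exact_mod_cast this
  have hL : ((((e₁ : ℤ) - -(e₀ : ℤ)) : ℤ) : ℝ) ≤ C * D * b := by
    push_cast
    linarith
  set good : ℤ → Prop := fun c => ∃ i j, Cross k (σ.vmap ∘ γ) (-(e₀ : ℤ)) e₁ c R i j ∧
    r₁ ≤ wt t (γ (i - 1)) (γ i)
  set Bad : Set ℤ := {c : ℤ | |(c : ℝ)| ≤ γ₀ * (D * b) / 2 ∧ ¬ good c}
  have hfew : ∀ lo hi : ℤ, -(9 * (b : ℤ)) ≤ lo → hi ≤ 6 * b →
      2 * ((Icc lo hi).filter fun c => ¬ good c).card ≤ b := by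
    intro lo hi h1 h2
    have hfin : Bad.Finite := by
      refine (Finset.Icc (-⌈γ₀ * (D * b) / 2⌉) ⌈γ₀ * (D * b) / 2⌉).finite_toSet.subset
        fun c hc => ?_
      obtain ⟨h3, h4⟩ := abs_le.1 hc.1
      have h5 := Int.le_ceil (γ₀ * (D * b) / 2)
      simp only [Finset.mem_coe, Finset.mem_Icc]
      constructor
      · have : ((-⌈γ₀ * (D * b) / 2⌉ : ℤ) : ℝ) ≤ c := by push_cast; linarith
        exact_mod_cast this
      · have : (c : ℝ) ≤ ((⌈γ₀ * (D * b) / 2⌉ : ℤ) : ℝ) := by linarith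
        exact_mod_cast this
    have hsub : (((Icc lo hi).filter fun c => ¬ good c : Finset ℤ) : Set ℤ) ⊆ Bad := by
      intro c hc
      obtain ⟨hc1, hc2⟩ := mem_filter.1 (mem_coe.1 hc)
      obtain ⟨h3, h4⟩ := mem_Icc.1 hc1
      refine ⟨?_, hc2⟩
      have h5 : ((-(9 * (b : ℤ)) : ℤ) : ℝ) ≤ (c : ℝ) := by exact_mod_cast h1.trans h3
      have h6 : (c : ℝ) ≤ ((6 * (b : ℤ) : ℤ) : ℝ) := by exact_mod_cast h4.trans h2
      push_cast at h5 h6
      rw [abs_le]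
      constructor <;> nlinarith
    have h7 := Set.ncard_le_ncard hsub hfin
    rw [Set.ncard_coe_finset] at h7
    have h8 : (2 : ℝ) * (((Icc lo hi).filter fun c => ¬ good c).card : ℝ) ≤ b := by
      have h9 : (((Icc lo hi).filter fun c => ¬ good c).card : ℝ) ≤ (Bad.ncard : ℝ) :=
        Nat.cast_le.2 h7
      have h10 : (1 / (2 * (D : ℝ))) * (D * b) = b / 2 := by field_simp
      change (Bad.ncard : ℝ) ≤ _ at hbad
      rw [h10] at hbad
      linarith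
    exact_mod_cast h8
  obtain ⟨c', hc', hgood'⟩ : ∃ c' ∈ Icc (-(9 * (b : ℤ))) (-(4 * (b : ℤ))), good c' := by
    by_contra! hne
    have h := hfew (-(9 * (b : ℤ))) (-(4 * (b : ℤ))) le_rfl (by omega)
    rw [filter_true_of_mem hne, Int.card_Icc] at h
    omega
  obtain ⟨i', j', hx', -⟩ := hgood'
  set G := (Icc (4 * (b : ℤ)) (6 * b)).filter good
  have hG : b ≤ G.card := by
    have h := hfew (4 * (b : ℤ)) (6 * b) (by omega) le_rfl
    have h' := card_filter_add_card_filter_not (s := Icc (4 * (b : ℤ)) (6 * b)) good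
    rw [Int.card_Icc] at h'
    change G.card + _ = _ at h'
    omega
  have hsite : ∀ c ∈ G, ∃ i : ℕ, lev k (σ.vmap (γ i)) = c ∧ (i : ℝ) ≤ C * D * b ∧
      (t ∈ wildEv σ k R r₁ (consts (C * D)).Cs ρ b (γ i) ∨ ∃ u ∈ units (consts (C * D)).Cs ρ,
        t ∈ slopeEv σ k R r₁ (consts (C * D)).Cs ρ b u (γ i) ∧
        ∀ m : ℤ, -(e : ℤ) ≤ m → m ≤ i →
          |off σ k (gridS (consts (C * D)).Cs ρ u) (γ m) (γ i)| ≤ 30 * ρ * b) := by
    intro c hc
    obtain ⟨hcI, i, j, hx, hh⟩ := mem_filter.1 hc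
    obtain ⟨h1, h2, h3⟩ := site_of_cross hσ hk hg hR hρ hρ1 (Cs := (consts (C * D)).Cs)
      (Cl := C * D) le_rfl (by positivity) hv (e := -(e : ℤ)) (by omega) hbox (by omega) (by omega)
      hL hl₀' hl₁' (mem_Icc.1 hcI) (mem_Icc.1 hc') hx hx' hh
    obtain ⟨n, rfl⟩ := Int.eq_ofNat_of_zero_le h1.le
    refine ⟨n, hx.first, le_trans ?_ hL, h3⟩
    exact_mod_cast (show (n : ℤ) ≤ (e₁ : ℤ) - -(e₀ : ℤ) by omega)
  choose! idx hidx using hsite
  have hinj : Set.InjOn idx (G : Set ℤ) := fun c hc c' hc' h => by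
    rw [← (hidx c hc).1, ← (hidx c' hc').1, h]
  obtain ⟨j, rfl, rfl⟩ := exists_index hσ hk
  set Gw := G.filter fun c => t ∈ wildEv (sym j) (kk j) R r₁ (consts (C * D)).Cs ρ b (γ (idx c))
  set Gt := G.filter fun c => ¬ t ∈ wildEv (sym j) (kk j) R r₁ (consts (C * D)).Cs ρ b (γ (idx c))
  refine ⟨Gw.image idx, Gt.image idx, ?_, fun i hi => ?_, fun i hi => ?_, fun i hi => ?_⟩
  · rw [card_image_of_injOn (hinj.mono (coe_subset.2 (filter_subset _ _))),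
      card_image_of_injOn (hinj.mono (coe_subset.2 (filter_subset _ _)))]
    rw [← card_union_of_disjoint (disjoint_filter_filter_not _ _ _), filter_union_filter_not_eq]
    exact hG
  · obtain ⟨c, hc, rfl⟩ := mem_image.1 hi
    exact ⟨j, (mem_filter.1 hc).2⟩
  · obtain ⟨c, hc, rfl⟩ := mem_image.1 hi
    obtain ⟨hcG, hnw⟩ := mem_filter.1 hc
    exact ⟨j, (hidx c hcG).2.2.resolve_left hnw⟩
  · rw [← image_union, filter_union_filter_not_eq, mem_image] at hi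
    obtain ⟨c, hc, rfl⟩ := hi
    refine ⟨(hidx c hc).2.1, ?_⟩
    by_contra! hnear
    have h1 := (abs_le.1 ((abs_lev_sub_le (sym_mem j) (kk_cases j) (γ 0) (γ (idx c))).1)).1
    have h2 := abs_le.1 (lev_vmap_le (sym_mem j) (kk_cases j) hv)
    have h3 := (mem_Icc.1 (mem_filter.1 hc).1).1
    have h4 := (hidx c hc).1
    omega

/-- The targets in the big box. -/
noncomputable def targets (t : Conf) (R : ℕ) (r₁ Cl ρ : ℝ) (b : ℕ) (v : V) : Finset V := by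
  classical
  exact ((Icc (-((consts Cl).X * b : ℕ) : ℤ) ((consts Cl).X * b : ℕ)) ×ˢ
    (Icc (-((consts Cl).X * b : ℕ) : ℤ) ((consts Cl).X * b : ℕ))).filter fun x =>
      Target t R r₁ Cl ρ b v x

lemma mem_targets {t : Conf} {R b : ℕ} {r₁ Cl ρ : ℝ} {γ : ℤ → V} {v : V}
    (hg : IsBigeodesic t γ) (h0 : γ 0 = v) (hv : InSq b v) {i : ℕ} (hi : (i : ℝ) ≤ Cl * b)
    (h : Target t R r₁ Cl ρ b v (γ i)) : γ i ∈ targets t R r₁ Cl ρ b v := by
  classical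
  have h1 := abs_dist hg (show (0 : ℤ) ≤ i by omega)
  have hiX : i + b ≤ (consts Cl).X * b := by
    have : (i : ℝ) + b ≤ (((consts Cl).X * b : ℕ) : ℝ) := by
      simp only [consts]
      push_cast
      nlinarith [mul_le_mul_of_nonneg_right (Nat.le_ceil Cl) (Nat.cast_nonneg (α := ℝ) b)]
    exact_mod_cast this
  obtain ⟨v1, v2, v3, v4⟩ := hv
  rw [h0] at h1
  have h2 := le_abs_self ((γ i).1 - v.1)
  have h3 := neg_abs_le ((γ i).1 - v.1)
  have h4 := le_abs_self ((γ i).2 - v.2)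
  have h5 := neg_abs_le ((γ i).2 - v.2)
  simp only [targets, mem_filter, mem_product, mem_Icc]
  exact ⟨⟨⟨by omega, by omega⟩, by omega, by omega⟩, h⟩

lemma mem_band {t : Conf} {R b : ℕ} {r₁ Cl ρ : ℝ} {γ δ : ℤ → V} {v : V} {eγ eδ : ℕ}
    {Iw It Iw' It' : Finset ℕ}
    (hCl : 0 ≤ Cl) (hρ : 0 < ρ) (hb : 0 < b) (hv : InSq b v)
    (hg : IsBigeodesic t γ) (hd : IsBigeodesic t δ) (h0 : γ 0 = v) (hcom : ∀ k : ℕ, γ k = δ k)
    (hne : γ (-1) ≠ δ (-1)) (hpos : 0 < eγ) (hpos' : 0 < eδ)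
    (hexit : γ (-(eγ : ℤ)) ∈ bd (4 * b)) (hexit' : δ (-(eδ : ℤ)) ∈ bd (4 * b))
    (hA : Arm t R r₁ Cl ρ b γ eγ Iw It) (hB : Arm t R r₁ Cl ρ b δ eδ Iw' It')
    {i : ℕ} (hi : i ∈ It) {i' : ℕ} (hi' : i' ∈ It') (hii : i ≤ i') :
    Target t R r₁ Cl ρ b v (γ i) := by
  classical
  obtain ⟨-, -, hAt, hAg⟩ := hA
  obtain ⟨-, -, hBt, -⟩ := hB
  obtain ⟨hiC, hfar⟩ := hAg i (mem_union_right _ hi)
  obtain ⟨j, u, hu, hev, htube⟩ := hAt i hi
  obtain ⟨j', u', hu', -, htube'⟩ := hBt i' hi'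
  set s := gridS (consts Cl).Cs ρ u
  set s' := gridS (consts Cl).Cs ρ u'
  have hb' : (0 : ℝ) < b := by exact_mod_cast hb
  have hgrid : ∀ w ∈ units (consts Cl).Cs ρ, |gridS (consts Cl).Cs ρ w| ≤ (consts Cl).Cs := by
    intro w hw
    obtain ⟨-, -, h2⟩ := mem_filter.1 hw
    have h3 : (0 : ℝ) ≤ ρ * w := by positivity
    rw [abs_le]
    simp only [gridS] at h2 ⊢
    constructor <;> linarith
  obtain ⟨α, β, hα, hβ, -, hoff⟩ := exists_coef (sym_mem j) (kk_cases j) s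
  obtain ⟨α', β', hα', hβ', hmax, hoff'⟩ := exists_coef (sym_mem j') (kk_cases j') s'
  have hA0 : (0 : ℝ) ≤ 1 + (consts Cl).Cs := by simp only [consts]; linarith
  have hαA : |α| ≤ 1 + (consts Cl).Cs := hα.trans (add_le_add le_rfl (hgrid u hu))
  have hβA : |β| ≤ 1 + (consts Cl).Cs := hβ.trans (add_le_add le_rfl (hgrid u hu))
  have hαA' : |α'| ≤ 1 + (consts Cl).Cs := hα'.trans (add_le_add le_rfl (hgrid u' hu'))
  have hβA' : |β'| ≤ 1 + (consts Cl).Cs := hβ'.trans (add_le_add le_rfl (hgrid u' hu'))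
  have hZ : 60 ≤ (consts Cl).Z := by
    simp only [consts]
    have : (1 : ℝ) ≤ 1 + 2 * (((⌈Cl⌉₊ + 1 : ℕ) : ℝ) + 4) := by
      linarith [(Nat.cast_nonneg _ : (0 : ℝ) ≤ ((⌈Cl⌉₊ + 1 : ℕ) : ℝ))]
    nlinarith
  have hρb : (0 : ℝ) ≤ ρ * b := by positivity
  have h60 : 60 * ρ * b ≤ (consts Cl).Z * ρ * b := by nlinarith
  have hv1 : |off (sym j) (kk j) s v (γ i)| ≤ 30 * ρ * b := by
    simpa [h0] using htube 0 (by omega) (by omega)
  have hx : δ i = γ i := (hcom i).symm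
  have hshift : ∀ m : ℤ, -(eδ : ℤ) ≤ m → m ≤ i' →
      |α' * (((δ m).1 : ℝ) - (γ i).1) + β' * (((δ m).2 : ℝ) - (γ i).2)| ≤ 60 * ρ * b := by
    intro m hm hm'
    rw [← hoff', ← hx, off_sub _ _ _ _ (δ i') _]
    refine (abs_sub _ _).trans ?_
    linarith [htube' m hm hm', htube' i (by omega) (by omega)]
  have hd0 : δ 0 = v := by rw [← h0]; simpa using (hcom 0).symm
  have hfarR : (b : ℝ) ≤ |((v.1 : ℝ) - (γ i).1)| ∨ (b : ℝ) ≤ |((v.2 : ℝ) - (γ i).2)| := by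
    rw [h0] at hfar
    rcases hfar with h | h
    · exact Or.inl (by exact_mod_cast h)
    · exact Or.inr (by exact_mod_cast h)
  have hbound : ∀ a ∈ bd (4 * b), |((a.1 : ℝ) - (γ i).1)| ≤ ((consts Cl).X + 4 : ℝ) * b ∧
      |((a.2 : ℝ) - (γ i).2)| ≤ ((consts Cl).X + 4 : ℝ) * b := by
    intro a ha
    obtain ⟨h1, h2, h3, h4⟩ := (mem_bd.1 ha).1
    obtain ⟨v1, v2, v3, v4⟩ := hv
    have h5 := abs_dist hg (show (0 : ℤ) ≤ i by omega)
    rw [h0] at h5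
    have hiX : (i : ℤ) + b ≤ ((consts Cl).X : ℤ) * b := by
      have : (i : ℝ) + b ≤ ((consts Cl).X : ℝ) * b := by
        simp only [consts]
        push_cast
        nlinarith [mul_le_mul_of_nonneg_right (Nat.le_ceil Cl) (Nat.cast_nonneg (α := ℝ) b)]
      exact_mod_cast this
    have e1 := le_abs_self ((γ i).1 - v.1)
    have e2 := neg_abs_le ((γ i).1 - v.1)
    have e3 := le_abs_self ((γ i).2 - v.2)
    have e4 := neg_abs_le ((γ i).2 - v.2)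
    constructor
    · have : |a.1 - (γ i).1| ≤ (((consts Cl).X : ℤ) + 4) * b := by
        rw [add_mul, abs_le]
        omega
      exact_mod_cast this
    · have : |a.2 - (γ i).2| ≤ (((consts Cl).X : ℤ) + 4) * b := by
        rw [add_mul, abs_le]
        omega
      exact_mod_cast this
  refine ⟨j, Or.inr ⟨u, hu, hev, le_trans hv1 (by linarith), ?_⟩⟩
  refine ⟨γ, δ, i, eγ, eδ, hg, hd, h0, hcom, hne, rfl, hpos, hpos', ?_, ?_⟩
  · refine mem_filter.2 ⟨hexit, (htube _ le_rfl (by omega)).trans (by linarith)⟩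
  · refine mem_filter.2 ⟨hexit', ?_⟩
    change |off (sym j) (kk j) s _ _| ≤ _
    rw [hoff]
    have h1 : |α * ((v.1 : ℝ) - (γ i).1) + β * ((v.2 : ℝ) - (γ i).2)| ≤ 60 * ρ * b := by
      rw [← hoff]; linarith
    have h2 := hshift 0 (by omega) (by omega)
    rw [hd0] at h2
    obtain ⟨he₁, he₂⟩ := hbound _ hexit'
    refine (three_point hb' hA0 hαA hβA hαA' hβA' hmax hfarR he₁ he₂ h1 h2
      (hshift _ le_rfl (by omega))).trans (le_of_eq ?_)
    simp only [consts]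
    ring

/-- A fork in the middle of the box has many targets. -/
theorem many_targets {t : Conf} {γ₀ C r₁ ρ : ℝ} {D b R : ℕ} {v : V}
    (hγ₀ : γ₀ ≤ 1) (hC : 0 ≤ C) (hD : 32 ≤ γ₀ * D) (hρ : 0 < ρ) (hρ1 : ρ ≤ 1) (hR : 2 * R < b)
    (hok : ChordOK γ₀ C r₁ (1 / (2 * D)) R (D * b) t) (hv : InSq b v) (hf : ForkV t v) :
    b ≤ 2 * (targets t R r₁ (C * D) ρ b v).card := by
  classical
  obtain ⟨γ, δ, hg, hd, h0, hcom, hne⟩ := hf
  have hd0 : δ 0 = v := by rw [← h0]; simpa using (hcom 0).symm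
  have hb4 : (b : ℤ) < ((4 * b : ℕ) : ℤ) := by omega
  obtain ⟨-, ⟨eγ, hpos, hexit, hbox⟩⟩ := exits hg (h0.symm ▸ hv) hb4
  obtain ⟨-, ⟨eδ, hpos', hexit', hbox'⟩⟩ := exits hd (hd0.symm ▸ hv) hb4
  have hexm : γ (-(eγ : ℤ)) ∈ bd (4 * b) := mem_bd.2 hexit
  have hexm' : δ (-(eδ : ℤ)) ∈ bd (4 * b) := mem_bd.2 hexit'
  push_cast at hbox hbox'
  obtain ⟨Iw, It, hA⟩ :=
    exists_arm hg hγ₀ hC hD hρ hρ1 hR hok (h0.symm ▸ hv) hbox
  obtain ⟨Iw', It', hB⟩ :=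
    exists_arm hd hγ₀ hC hD hρ hρ1 hR hok (hd0.symm ▸ hv) hbox'
  have hCl : 0 ≤ C * D := by positivity
  have hinj : ∀ η : ℤ → V, IsBigeodesic t η → Function.Injective fun i : ℕ => η i :=
    fun η hη a c hac => by simpa using hη.inj hac
  have count : ∀ η : ℤ → V, IsBigeodesic t η → η 0 = v → ∀ I : Finset ℕ,
      (∀ i ∈ I, (i : ℝ) ≤ C * D * b ∧ Target t R r₁ (C * D) ρ b v (η i)) →
      I.card ≤ (targets t R r₁ (C * D) ρ b v).card := fun η hη hη0 I hI =>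
    card_le_card_of_injOn (fun i : ℕ => η i)
      (fun i hi => mem_targets hη hη0 hv (hI i hi).1 (hI i hi).2) (hinj η hη).injOn
  have hw : Iw.card ≤ (targets t R r₁ (C * D) ρ b v).card := count γ hg h0 Iw fun i hi => by
    obtain ⟨j, hj⟩ := hA.2.1 i hi
    exact ⟨(hA.2.2.2 i (mem_union_left _ hi)).1, j, Or.inl ⟨hj, γ, δ, i, eγ, eδ, hg, hd, h0, hcom,
      hne, rfl, hpos, hpos', hexm, hexm'⟩⟩
  have hw' : Iw'.card ≤ (targets t R r₁ (C * D) ρ b v).card := count δ hd hd0 Iw' fun i hi => by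
    obtain ⟨j, hj⟩ := hB.2.1 i hi
    exact ⟨(hB.2.2.2 i (mem_union_left _ hi)).1, j, Or.inl ⟨hj, γ, δ, i, eγ, eδ, hg, hd, h0, hcom,
      hne, hcom i, hpos, hpos', hexm, hexm'⟩⟩
  have hb : 0 < b := by omega
  have := hA.1
  have := hB.1
  rcases It.eq_empty_or_nonempty with h | hIt
  · have : It.card = 0 := by simp [h]
    omega
  rcases It'.eq_empty_or_nonempty with h | hIt'
  · have : It'.card = 0 := by simp [h]
    omega
  rcases le_total (It.max' hIt) (It'.max' hIt') with hmax | hmax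
  · have ht : It.card ≤ (targets t R r₁ (C * D) ρ b v).card := count γ hg h0 It fun i hi =>
      ⟨(hA.2.2.2 i (mem_union_right _ hi)).1, mem_band hCl hρ hb hv hg hd h0 hcom hne hpos hpos'
        hexm hexm' hA hB hi (It'.max'_mem hIt') ((It.le_max' i hi).trans hmax)⟩
    omega
  · have ht : It'.card ≤ (targets t R r₁ (C * D) ρ b v).card := count δ hd hd0 It' fun i hi =>
      ⟨(hB.2.2.2 i (mem_union_right _ hi)).1, mem_band hCl hρ hb hv hd hg hd0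
        (fun k => (hcom k).symm) (Ne.symm hne) hpos' hpos hexm' hexm hB hA hi (It.max'_mem hIt)
        ((It'.le_max' i hi).trans hmax)⟩
    omega

end Vale.Agent.P158.ForkAll
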