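import Vale.Agent.P158.Spec3
import Vale.Agent.P158.Basic

/-!
Tubes in one of the frames as linear conditions, three points in two narrow tubes, and the number
of boundary points of a box in a narrow band through its middle.
-/

open MeasureTheory Finset

namespace Vale.Agent.P158.ForkAll

variable {σ : LatSym} {k : ℤ}

lemma frame_matrix (hσ : σ ∈ frameSyms) : ∃ a b c d : ℤ,
    (((a = 1 ∨ a = -1) ∧ b = 0 ∧ c = 0 ∧ (d = 1 ∨ d = -1)) ∨
      (a = 0 ∧ (b = 1 ∨ b = -1) ∧ (c = 1 ∨ c = -1) ∧ d = 0)) ∧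
    ∀ u : V, σ.vmap u = (a * u.1 + b * u.2, c * u.1 + d * u.2) := by
  simp only [frameSyms, List.mem_cons, List.not_mem_nil, or_false] at hσ
  rcases hσ with rfl | rfl | rfl | rfl | rfl | rfl
  · exact ⟨1, 0, 0, 1, by simp, fun u => by simp⟩
  · exact ⟨0, 1, 1, 0, by simp, fun u => by simp⟩
  · exact ⟨1, 0, 0, -1, by simp, fun u => by simp⟩
  · exact ⟨-1, 0, 0, 1, by simp, fun u => by simp [negXSym, LatSym.comp]⟩
  · exact ⟨-1, 0, 0, -1, by simp, fun u => by simp [negSym, negXSym, LatSym.comp]⟩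
  · exact ⟨0, -1, -1, 0, by simp, fun u => by simp [negSym, negXSym, LatSym.comp]⟩

/-- The level in a frame is bounded by the coordinates. -/
lemma abs_lev_sub_le (hσ : σ ∈ frameSyms) (hk : k = 0 ∨ k = 1) (u v : V) :
    |lev k (σ.vmap u) - lev k (σ.vmap v)| ≤ |u.1 - v.1| + |u.2 - v.2| ∧
      |(σ.vmap u).2 - (σ.vmap v).2| ≤ |u.1 - v.1| + |u.2 - v.2| := by
  obtain ⟨a, b, c, d, h, e⟩ := frame_matrix hσ
  have h1 := le_abs_self (u.1 - v.1)
  have h2 := neg_abs_le (u.1 - v.1)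
  have h3 := le_abs_self (u.2 - v.2)
  have h4 := neg_abs_le (u.2 - v.2)
  simp only [e, lev, abs_le]
  rcases hk with rfl | rfl <;>
    rcases h with ⟨rfl | rfl, rfl, rfl, rfl | rfl⟩ | ⟨rfl, rfl | rfl, rfl | rfl, rfl⟩ <;> omega

lemma lev_vmap_le (hσ : σ ∈ frameSyms) (hk : k = 0 ∨ k = 1) {M : ℤ} {u : V} (hu : InSq M u) :
    |lev k (σ.vmap u)| ≤ 2 * M := by
  have h := (abs_lev_sub_le hσ hk u (0, 0)).1
  obtain ⟨a, b, c, d, -, e⟩ := frame_matrix hσ
  have h0 : σ.vmap ((0 : ℤ), (0 : ℤ)) = (0, 0) := by simp [e]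
  simp only [h0, lev, mul_zero, add_zero, sub_zero] at h ⊢
  obtain ⟨h1, h2, h3, h4⟩ := hu
  have := abs_le.2 ⟨h1, h2⟩
  have := abs_le.2 ⟨h3, h4⟩
  omega

/-- The offset of `u` from the line of slope `s` through `x` in a frame. -/
def off (σ : LatSym) (k : ℤ) (s : ℝ) (u x : V) : ℝ :=
  ((σ.vmap u).2 : ℝ) - (σ.vmap x).2 - s * ((lev k (σ.vmap u) : ℝ) - lev k (σ.vmap x))

lemma off_sub (σ : LatSym) (k : ℤ) (s : ℝ) (u w x : V) :
    off σ k s u x = off σ k s u w - off σ k s x w := by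
  unfold off
  ring

lemma exists_coef (hσ : σ ∈ frameSyms) (hk : k = 0 ∨ k = 1) (s : ℝ) : ∃ α β : ℝ,
    |α| ≤ 1 + |s| ∧ |β| ≤ 1 + |s| ∧ (1 / 2 ≤ |α| ∨ 1 / 2 ≤ |β|) ∧
    ∀ u x : V, off σ k s u x = α * ((u.1 : ℝ) - x.1) + β * ((u.2 : ℝ) - x.2) := by
  obtain ⟨a, b, c, d, h, e⟩ := frame_matrix hσ
  refine ⟨(c : ℝ) - s * (a + k * c), (d : ℝ) - s * (b + k * d), ?_⟩
  have hs : |1 - s * k| ≤ 1 + |s| := by
    rcases hk with rfl | rfl
    · simp
    · simpa using (abs_sub (1 : ℝ) s)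
  have hmax : 1 / 2 ≤ |s| ∨ 1 / 2 ≤ |1 - s * k| := by
    by_contra! hc
    rcases hk with rfl | rfl
    · norm_num at hc
    · have h := abs_add_le (1 - s) s
      simp at h
      norm_num at hc
      linarith
  have hs' : |s| ≤ 1 + |s| := by linarith
  refine ⟨?_, ?_, ?_, fun u x => ?_⟩
  rotate_right
  · simp only [off, e, lev]
    push_cast
    ring
  all_goals
    rcases h with ⟨rfl | rfl, rfl, rfl, rfl | rfl⟩ | ⟨rfl, rfl | rfl, rfl | rfl, rfl⟩ <;>
      push_cast <;> ring_nf <;> ring_nf at hs hmax hs' <;>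
      first
        | (simp; done)
        | simpa [abs_neg, abs_sub_comm, neg_add_eq_sub] using hs
        | simpa [abs_neg] using hs'
        | simpa [abs_neg, abs_sub_comm, neg_add_eq_sub, or_comm] using hmax

/-- Two narrow tubes through two distant points contain the same points at comparable
distance. -/
lemma three_point {α β α' β' d₁ d₂ e₁ e₂ A W X b : ℝ} (hb : 0 < b) (hA : 0 ≤ A)
    (hα : |α| ≤ A) (hβ : |β| ≤ A) (hα' : |α'| ≤ A) (hβ' : |β'| ≤ A)
    (hmax : 1 / 2 ≤ |α'| ∨ 1 / 2 ≤ |β'|) (hd : b ≤ |d₁| ∨ b ≤ |d₂|)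
    (he₁ : |e₁| ≤ X * b) (he₂ : |e₂| ≤ X * b)
    (h1 : |α * d₁ + β * d₂| ≤ W) (h2 : |α' * d₁ + β' * d₂| ≤ W) (h3 : |α' * e₁ + β' * e₂| ≤ W) :
    |α * e₁ + β * e₂| ≤ 2 * A * (1 + 2 * X) * W := by
  set D := α' * β - α * β'
  set F := α * d₁ + β * d₂
  set Gd := α' * d₁ + β' * d₂
  set Fe := α * e₁ + β * e₂
  set Ge := α' * e₁ + β' * e₂
  have hD : |D| * b ≤ 2 * A * W := by
    rcases hd with hd | hd
    · have e : D * d₁ = β * Gd - β' * F := by simp only [D, F, Gd]; ring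
      calc |D| * b ≤ |D| * |d₁| := mul_le_mul_of_nonneg_left hd (abs_nonneg _)
        _ = |β * Gd - β' * F| := by rw [← abs_mul, e]
        _ ≤ |β * Gd| + |β' * F| := abs_sub _ _
        _ ≤ A * W + A * W := by rw [abs_mul, abs_mul]; gcongr
        _ = _ := by ring
    · have e : D * d₂ = α' * F - α * Gd := by simp only [D, F, Gd]; ring
      calc |D| * b ≤ |D| * |d₂| := mul_le_mul_of_nonneg_left hd (abs_nonneg _)
        _ = |α' * F - α * Gd| := by rw [← abs_mul, e]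
        _ ≤ |α' * F| + |α * Gd| := abs_sub _ _
        _ ≤ A * W + A * W := by rw [abs_mul, abs_mul]; gcongr
        _ = _ := by ring
  have key : ∀ x y z : ℝ, |y| ≤ A → |z| ≤ X * b → x * Fe = y * Ge + D * z ∨
      x * Fe = y * Ge - D * z → 1 / 2 ≤ |x| → |Fe| ≤ 2 * A * (1 + 2 * X) * W := by
    intro x y z hy hz hx hx2
    have hX : 0 ≤ X := nonneg_of_mul_nonneg_left ((abs_nonneg z).trans hz) hb
    have h4 : |x| * |Fe| ≤ A * W + 2 * A * W * X := by
      calc |x| * |Fe| = |x * Fe| := (abs_mul _ _).symm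
        _ ≤ |y * Ge| + |D * z| := by
            rcases hx with hx | hx <;> rw [hx]
            · exact abs_add_le _ _
            · exact abs_sub _ _
        _ ≤ A * W + |D| * (X * b) := by rw [abs_mul, abs_mul]; gcongr
        _ = A * W + |D| * b * X := by ring
        _ ≤ _ := by gcongr
    nlinarith [mul_le_mul_of_nonneg_right hx2 (abs_nonneg Fe)]
  rcases hmax with h | h
  · exact key α' α e₂ hα he₂ (Or.inl (by simp only [Fe, Ge, D]; ring)) h
  · exact key β' β e₁ hβ he₁ (Or.inr (by simp only [Fe, Ge, D]; ring)) h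

/-- The boundary of a box. -/
noncomputable def bd (M : ℕ) : Finset V := by
  classical
  exact (Icc (-(M : ℤ)) M ×ˢ Icc (-(M : ℤ)) M).filter fun u => OnBd M u

lemma mem_bd {M : ℕ} {u : V} : u ∈ bd M ↔ OnBd M u := by
  classical
  simp only [bd, mem_filter, mem_product, mem_Icc]
  exact ⟨And.right, fun h => ⟨⟨⟨h.1.1, h.1.2.1⟩, h.1.2.2.1, h.1.2.2.2⟩, h⟩⟩

lemma card_le_sides {M : ℕ} (S : Finset V) (hS : S ⊆ bd M) (K : ℕ)
    (h₁ : ∀ c : ℤ, (c = M ∨ c = -(M : ℤ)) → ((S.filter fun u => u.1 = c).card ≤ K ∧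
      (S.filter fun u => u.2 = c).card ≤ K)) : S.card ≤ 4 * K := by
  classical
  have hsub : S ⊆ (S.filter (fun u => u.1 = M) ∪ S.filter fun u => u.1 = -(M : ℤ)) ∪
      (S.filter (fun u => u.2 = M) ∪ S.filter fun u => u.2 = -(M : ℤ)) := by
    intro u hu
    have := (mem_bd.1 (hS hu)).2
    simp only [mem_union, mem_filter, hu, true_and]
    tauto
  have := card_union_le (S.filter fun u => u.1 = (M : ℤ)) (S.filter fun u => u.1 = -(M : ℤ))
  have := card_union_le (S.filter fun u => u.2 = (M : ℤ)) (S.filter fun u => u.2 = -(M : ℤ))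
  have := (card_le_card hsub).trans (card_union_le _ _)
  have := h₁ M (Or.inl rfl)
  have := h₁ (-(M : ℤ)) (Or.inr rfl)
  omega

lemma card_bd_le (M : ℕ) : (bd M).card ≤ 4 * (2 * M + 1) := by
  classical
  refine card_le_sides _ Subset.rfl _ fun c _ => ⟨?_, ?_⟩
  · refine (card_le_card_of_injOn (t := Icc (-(M : ℤ)) M) Prod.snd (fun u hu => ?_) ?_).trans
      (by rw [Int.card_Icc]; omega)
    · have h := (mem_bd.1 (mem_filter.1 hu).1).1
      exact mem_Icc.2 ⟨h.2.2.1, h.2.2.2⟩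
    · intro u hu w hw huw
      exact Prod.ext ((mem_filter.1 hu).2.trans (mem_filter.1 hw).2.symm) huw
  · refine (card_le_card_of_injOn (t := Icc (-(M : ℤ)) M) Prod.fst (fun u hu => ?_) ?_).trans
      (by rw [Int.card_Icc]; omega)
    · have h := (mem_bd.1 (mem_filter.1 hu).1).1
      exact mem_Icc.2 ⟨h.1, h.2.1⟩
    · intro u hu w hw huw
      exact Prod.ext huw ((mem_filter.1 hu).2.trans (mem_filter.1 hw).2.symm)

/-- Integers within a short real distance of each other are few. -/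
lemma card_close (I : Finset ℤ) {T : ℝ} (h : ∀ i ∈ I, ∀ j ∈ I, |(i : ℝ) - j| ≤ T) :
    I.card ≤ 2 * ⌈T⌉₊ + 1 := by
  rcases I.eq_empty_or_nonempty with rfl | ⟨i, hi⟩
  · simp
  refine (card_le_card (t := Icc (i - ⌈T⌉₊) (i + ⌈T⌉₊)) fun j hj => ?_).trans
    (by rw [Int.card_Icc]; omega)
  have h1 : |((j : ℤ) : ℝ) - i| ≤ ((⌈T⌉₊ : ℕ) : ℝ) := (h j hj i hi).trans (Nat.le_ceil T)
  have h2 : |j - i| ≤ (⌈T⌉₊ : ℤ) := by exact_mod_cast h1
  rw [abs_le] at h2
  exact mem_Icc.2 ⟨by omega, by omega⟩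

/-- A narrow band through the inner box meets the boundary of the box of four times the radius in
few points. -/
lemma card_band {b : ℕ} {α β W : ℝ} {v x : V} (S : Finset V) (hS : S ⊆ bd (4 * b))
    (hmax : 1 / 2 ≤ |α| ∨ 1 / 2 ≤ |β|) (hW : 8 * W < b) (hv : InSq b v)
    (hvx : |α * ((v.1 : ℝ) - x.1) + β * ((v.2 : ℝ) - x.2)| ≤ W)
    (hu : ∀ u ∈ S, |α * ((u.1 : ℝ) - x.1) + β * ((u.2 : ℝ) - x.2)| ≤ W) :
    S.card ≤ 4 * (2 * ⌈32 * W⌉₊ + 1) := by
  classical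
  refine card_le_sides S hS _ fun c hc => ?_
  have hb : 0 < b := by
    have := (abs_nonneg _).trans hvx
    exact Nat.pos_of_ne_zero fun h => by subst h; simp at hW; linarith
  have hc' : |(c : ℝ)| = 4 * b := by
    rcases hc with rfl | rfl <;> simp
  obtain ⟨v1, v2, v3, v4⟩ := hv
  have hv1 : |(v.1 : ℝ)| ≤ b := abs_le.2 ⟨by exact_mod_cast v1, by exact_mod_cast v2⟩
  have hv2 : |(v.2 : ℝ)| ≤ b := abs_le.2 ⟨by exact_mod_cast v3, by exact_mod_cast v4⟩
  have hdiff : ∀ u ∈ S, |α * ((u.1 : ℝ) - v.1) + β * ((u.2 : ℝ) - v.2)| ≤ 2 * W := by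
    intro u h
    have := abs_sub (α * ((u.1 : ℝ) - x.1) + β * ((u.2 : ℝ) - x.2))
      (α * ((v.1 : ℝ) - x.1) + β * ((v.2 : ℝ) - x.2))
    calc _ = |(α * ((u.1 : ℝ) - x.1) + β * ((u.2 : ℝ) - x.2)) -
          (α * ((v.1 : ℝ) - x.1) + β * ((v.2 : ℝ) - x.2))| := by ring_nf
      _ ≤ _ := by linarith [hu u h]
  have hsq : ∀ u ∈ S, |(u.1 : ℝ)| ≤ 4 * b ∧ |(u.2 : ℝ)| ≤ 4 * b := by
    intro u h
    obtain ⟨h1, h2, h3, h4⟩ := (mem_bd.1 (hS h)).1
    exact ⟨abs_le.2 ⟨by exact_mod_cast h1, by exact_mod_cast h2⟩,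
      abs_le.2 ⟨by exact_mod_cast h3, by exact_mod_cast h4⟩⟩
  have key : ∀ (p q : V → ℤ) (a a' : ℝ), (1 / 2 ≤ |a| ∨ 1 / 2 ≤ |a'|) →
      (∀ u ∈ S, |a * ((p u : ℝ) - p v) + a' * ((q u : ℝ) - q v)| ≤ 2 * W) →
      (∀ u ∈ S, |(q u : ℝ)| ≤ 4 * b) → |(p v : ℝ)| ≤ b → |(q v : ℝ)| ≤ b →
      ∀ u ∈ S.filter (fun u => p u = c), ∀ w ∈ S.filter (fun u => p u = c),
        |(q u : ℝ) - q w| ≤ 32 * W := by
    intro p q a a' hor hd hq hpv hqv u hu' w hw'
    obtain ⟨huS, hup⟩ := mem_filter.1 hu'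
    obtain ⟨hwS, hwp⟩ := mem_filter.1 hw'
    have hb' : (1 : ℝ) ≤ b := by exact_mod_cast hb
    have h1 := hd u huS
    have h2 := hd w hwS
    rw [hup] at h1
    rw [hwp] at h2
    have hcp : 3 * (b : ℝ) ≤ |(c : ℝ) - p v| := by
      have := abs_sub_abs_le_abs_sub (c : ℝ) (p v : ℝ)
      linarith
    have ha' : 1 / 8 ≤ |a'| := by
      by_contra! hlt
      rcases hor with hor | hor
      · have h3 : |a * ((c : ℝ) - p v)| ≤ 2 * W + |a' * ((q u : ℝ) - q v)| := by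
          have := abs_sub (a * ((c : ℝ) - p v) + a' * ((q u : ℝ) - q v)) (a' * ((q u : ℝ) - q v))
          rw [add_sub_cancel_right] at this
          linarith
        rw [abs_mul, abs_mul] at h3
        have h4 : |(q u : ℝ) - q v| ≤ 5 * b := (abs_sub _ _).trans (by linarith [hq u huS])
        nlinarith [mul_le_mul hor hcp (by positivity) (abs_nonneg a),
          mul_le_mul hlt.le h4 (abs_nonneg _) (by norm_num)]
      · linarith
    have h5 : |a' * ((q u : ℝ) - q w)| ≤ 4 * W := by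
      have := abs_sub (a * ((c : ℝ) - p v) + a' * ((q u : ℝ) - q v))
        (a * ((c : ℝ) - p v) + a' * ((q w : ℝ) - q v))
      calc _ = |(a * ((c : ℝ) - p v) + a' * ((q u : ℝ) - q v)) -
            (a * ((c : ℝ) - p v) + a' * ((q w : ℝ) - q v))| := by ring_nf
        _ ≤ _ := by linarith
    rw [abs_mul] at h5
    nlinarith [mul_le_mul_of_nonneg_right ha' (abs_nonneg ((q u : ℝ) - q w))]
  constructor
  · rw [← card_image_of_injOn (f := Prod.snd) (s := S.filter fun u => u.1 = c)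
      fun u hu' w hw' h => Prod.ext ((mem_filter.1 hu').2.trans (mem_filter.1 hw').2.symm) h]
    refine card_close _ fun i hi j hj => ?_
    obtain ⟨u, hu', rfl⟩ := mem_image.1 hi
    obtain ⟨w, hw', rfl⟩ := mem_image.1 hj
    exact key Prod.fst Prod.snd α β hmax hdiff (fun u h => (hsq u h).2) hv1 hv2 u hu' w hw'
  · rw [← card_image_of_injOn (f := Prod.fst) (s := S.filter fun u => u.2 = c)
      fun u hu' w hw' h => Prod.ext h ((mem_filter.1 hu').2.trans (mem_filter.1 hw').2.symm)]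
    refine card_close _ fun i hi j hj => ?_
    obtain ⟨u, hu', rfl⟩ := mem_image.1 hi
    obtain ⟨w, hw', rfl⟩ := mem_image.1 hj
    exact key Prod.snd Prod.fst β α hmax.symm
      (fun u h => by rw [add_comm]; exact hdiff u h) (fun u h => (hsq u h).1) hv2 hv1 u hu' w hw'

end Vale.Agent.P158.ForkAll
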