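import Vale.Agent.P158.ForkAll.Geom
import Vale.Agent.P158.Fork.Walks
import Vale.Agent.P158.Fork.Tree

/-!
The forks which branch from a set of leaves towards one vertex are at most as many as the leaves.
-/

open MeasureTheory Filter

namespace Vale.Agent.P158.ForkAll

/-- Two lines from leaves in `W` meet at `v` from different neighbours and go on to `x`. -/
def BranchTo (t : Conf) (W : Finset V) (x v : V) : Prop :=
  ∃ (γ δ : ℤ → V) (a b i : ℤ), IsBigeodesic t γ ∧ IsBigeodesic t δ ∧ γ 0 = v ∧ δ 0 = v ∧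
    γ (-1) ≠ δ (-1) ∧ a < 0 ∧ b < 0 ∧ γ a ∈ W ∧ δ b ∈ W ∧ 0 ≤ i ∧ γ i = x ∧ δ i = x

open Classical in
lemma card_branchTo_le {t : Conf} (htf : TieFree t) (W : Finset V) (x : V) (Fs : Finset V) :
    (Fs.filter (BranchTo t W x)).card ≤ W.card := by
  set S := W.filter fun z => ∃ γ, ∃ i j : ℤ, i ≤ j ∧ IsBigeodesic t γ ∧ γ i = z ∧ γ j = x
  have hex : ∀ z, ∃ (γ : ℤ → V) (j : ℤ) (len : ℕ), z ∈ S →
      IsBigeodesic t γ ∧ γ (j - len) = z ∧ γ j = x := by
    intro z
    by_cases hz : z ∈ S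
    · obtain ⟨-, γ, i, j, hij, hg, hi, hj⟩ := Finset.mem_filter.1 hz
      exact ⟨γ, j, (j - i).toNat, fun _ => ⟨hg, by rw [← hi]; congr 1; omega, hj⟩⟩
    · exact ⟨fun _ => 0, 0, 0, fun h => absurd h hz⟩
  choose g jx len hg using hex
  set P : V → ℕ → V := fun z k => g z (jx z - k)
  have hagree : Fork.Agree P len (S : Set V) := by
    intro z hz y hy i j hi hj hzy
    obtain ⟨gz, -, ez⟩ := hg z hz
    obtain ⟨gy, -, ey⟩ := hg y hy
    obtain ⟨hij, hk⟩ := Fork.segment_unique htf gz gy (i := jx z - i) (i' := jx y - j) (n := i)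
      (n' := j) hzy (by rw [sub_add_cancel, sub_add_cancel, ez, ey])
    refine ⟨hij, fun k hki => ?_⟩
    have := hk (i - k) (Nat.sub_le _ _)
    rw [Nat.cast_sub hki, ← hij] at this
    simp only [P]
    convert this using 2 <;> ring
  obtain ⟨hfin, hle⟩ := Fork.branchSet_finite_card_le P len S hagree
  refine le_trans ?_ (hle.trans (Finset.card_filter_le _ _))
  rw [Set.ncard_eq_toFinset_card _ hfin]
  refine Finset.card_le_card fun v hv => ?_
  obtain ⟨-, γ, δ, a, b, i, hγ, hδ, hγ0, hδ0, hne, ha, hb, hγa, hδb, hi, hγi, hδi⟩ :=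
    Finset.mem_filter.1 hv
  have leaf : ∀ (η : ℤ → V) (a : ℤ), IsBigeodesic t η → η 0 = v → η i = x → a < 0 → η a ∈ W →
      ∃ z ∈ S, i.toNat < len z ∧ P z i.toNat = v ∧ P z (i.toNat + 1) = η (-1) := by
    intro η a hη h0 hi' ha haW
    have hz : η a ∈ S := Finset.mem_filter.2 ⟨haW, η, a, i, by omega, hη, rfl, hi'⟩
    obtain ⟨gz, ga, gx⟩ := hg _ hz
    obtain ⟨hlen, hk⟩ := Fork.segment_unique htf gz hη (i' := a) (n' := (i - a).toNat) ga
      (by rw [sub_add_cancel, gx, ← hi']; congr 1; omega)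
    refine ⟨_, hz, by omega, ?_, ?_⟩
    · have h := hk (-a).toNat (by omega)
      simp only [P]
      rw [← h0]
      convert h using 2 <;> omega
    · have h := hk (-a - 1).toNat (by omega)
      simp only [P]
      convert h using 2 <;> omega
  obtain ⟨z, hz, hzl, hzv, hz1⟩ := leaf γ a hγ hγ0 hγi ha hγa
  obtain ⟨y, hy, hyl, hyv, hy1⟩ := leaf δ b hδ hδ0 hδi hb hδb
  exact hfin.mem_toFinset.2
    ⟨z, hz, y, hy, i.toNat, hzl, hyl, hzv, hyv, by rw [hz1, hy1]; exact hne⟩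

end Vale.Agent.P158.ForkAll
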