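import Vale.Agent.P158.ForkAll.Site
import Vale.Agent.P158.ForkAll.Tree
import Vale.Agent.P158.OrderBox

/-!
Each fork near the middle of a box is the branch point of many sites: wild ones, or ones of a
given slope to which only leaves near the line of that slope lead.
-/

open MeasureTheory Filter

namespace Vale.Agent.P158.ForkAll

/-- A fork of two bigeodesics at `v`. -/
def ForkV (t : Conf) (v : V) : Prop :=
  ∃ γ δ : ℤ → V, IsBigeodesic t γ ∧ IsBigeodesic t δ ∧ γ 0 = v ∧ (∀ n : ℕ, γ n = δ n) ∧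
    γ (-1) ≠ δ (-1)

/-- The vertices of the box of radius `M`. -/
noncomputable def sqBox (M : ℕ) : Finset V := Finset.Icc (-(M : ℤ)) M ×ˢ Finset.Icc (-(M : ℤ)) M

lemma mem_sqBox {M : ℕ} {z : V} : z ∈ sqBox M ↔ InSq M z := by
  simp only [sqBox, Finset.mem_product, Finset.mem_Icc, InSq]
  tauto

lemma card_sqBox (M : ℕ) : (sqBox M).card = (2 * M + 1) * (2 * M + 1) := by
  rw [sqBox, Finset.card_product, Int.card_Icc, show ((M : ℤ) + 1 - -M).toNat = 2 * M + 1 by omega]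

open Classical in
/-- The boundary of the box of radius `N`. -/
noncomputable def bdSet (N : ℕ) : Finset V := (sqBox N).filter (OnBd N)

lemma mem_bdSet {N : ℕ} {z : V} (h : OnBd N z) : z ∈ bdSet N := by
  classical exact Finset.mem_filter.2 ⟨mem_sqBox.2 h.1, h⟩

lemma card_bdSet_le (N : ℕ) : (bdSet N).card ≤ 8 * N + 1 := by
  classical
  have h := Finset.card_le_card_of_injOn (bdPos N) (s := bdSet N)
    (t := Finset.Icc (0 : ℤ) (8 * N))
    (fun z hz => Finset.mem_Icc.2 (bdPos_mem (Finset.mem_filter.1 hz).2))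
    (fun u hu v hv => bdPos_injOn (Finset.mem_filter.1 hu).2 (Finset.mem_filter.1 hv).2)
  rw [Int.card_Icc] at h
  omega

/-- The indices of the frames. -/
abbrev FI := Fin frameSyms.length × Fin 2

/-- The symmetry of a frame. -/
def fSym (f : FI) : LatSym := frameSyms.get f.1

/-- The kind of a frame. -/
def fk (f : FI) : ℤ := ((f.2 : ℕ) : ℤ)

lemma fk_mem (f : FI) : fk f = 0 ∨ fk f = 1 := by
  have := f.2.isLt
  simp only [fk]
  omega

lemma fSym_perm (f : FI) : SignedPerm (fSym f) := signedPerm_of_mem (List.get_mem _ _)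

lemma exists_frame {σ : LatSym} {k : ℤ} (hσ : σ ∈ frameSyms) (hk : k = 0 ∨ k = 1) :
    ∃ f : FI, fSym f = σ ∧ fk f = k := by
  obtain ⟨i, hi⟩ := List.get_of_mem hσ
  rcases hk with rfl | rfl
  · exact ⟨(i, 0), hi, rfl⟩
  · exact ⟨(i, 1), hi, rfl⟩

/-- The grid of tube slopes. -/
noncomputable def sgrid (C₂ ρ : ℝ) (u : ℕ) : ℝ := -C₂ + ρ * u

/-- The number of slopes of the grid. -/
noncomputable def gridCard (C₂ ρ : ℝ) : ℕ := ⌊2 * C₂ / ρ⌋₊ + 1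

lemma exists_grid {C₂ ρ s : ℝ} (hρ : 0 < ρ) (hs : |s| ≤ C₂) :
    ∃ u < gridCard C₂ ρ, |s - sgrid C₂ ρ u| ≤ ρ ∧ |sgrid C₂ ρ u| ≤ C₂ := by
  obtain ⟨h1, h2⟩ := abs_le.1 hs
  have h0 : 0 ≤ (s + C₂) / ρ := div_nonneg (by linarith) hρ.le
  have hf := Nat.floor_le h0
  have hf' := Nat.lt_floor_add_one ((s + C₂) / ρ)
  rw [le_div_iff₀ hρ] at hf
  rw [div_lt_iff₀ hρ] at hf'
  refine ⟨⌊(s + C₂) / ρ⌋₊, Nat.lt_succ_of_le (Nat.floor_mono ?_), ?_, ?_⟩
  · exact div_le_div_of_nonneg_right (by linarith) hρ.le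
  · rw [sgrid, abs_le]; constructor <;> linarith
  · have h3 : (0 : ℝ) ≤ ρ * ⌊(s + C₂) / ρ⌋₊ := by positivity
    rw [sgrid, abs_le]; constructor <;> linarith

/-- The scales of the count. -/
structure Scale (γ₀ C ε β C₂ ρ w : ℝ) (R N n D B : ℕ) : Prop where
  hβ : 0 < β
  hρ : 0 < ρ
  hC₂ : 0 ≤ C₂
  hNn : C * N ≤ C₂ * n
  hB : (B : ℝ) ≤ β * N
  hBN : B < N
  hB8 : β ≤ γ₀ / 8
  hR : (R : ℝ) < β * N
  hlev : (n : ℝ) + 6 * β * N ≤ γ₀ * N / 2
  hρn : ρ * n ≤ β * N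
  hD : (16 * C₂ + 10) * (β * N) + 1 ≤ D
  hn : 2 * (D : ℝ) + (16 * C₂ + 20) * (β * N) < n
  hw1 : 2 * (ρ * n) ≤ w
  hw2 : 2 * (1 + (C₂ + 1)) * (2 * (ρ * n)) +
    8 * (1 + (C₂ + 1)) * (2 * (ρ * n)) * (2 * D) / (2 * β * N) ≤ w
  hgood : 0 < 2 * β * N - 1 - 3 * (ε * N)

/-- The wild sites of a frame at `x`. -/
def wildAt (R : ℕ) (r₁ C₂ ρ : ℝ) (n : ℕ) (f : FI) (x : V) : Set Conf :=
  siteConf (fSym f) x ⁻¹' wildSite (fk f) R r₁ C₂ ρ n

/-- The sites of a slope of the grid at `x`. -/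
def slopeAt (R : ℕ) (r₁ C₂ ρ : ℝ) (n : ℕ) (f : FI) (u : ℕ) (x : V) : Set Conf :=
  siteConf (fSym f) x ⁻¹'
    slopeSite (fk f) R r₁ (C₂ + 3) n (sgrid C₂ ρ u - 2 * ρ) (sgrid C₂ ρ u + 2 * ρ)

open Classical in
/-- The weight of the pair of a fork and a site. -/
noncomputable def score (R : ℕ) (r₁ C₂ ρ w : ℝ) (N n D : ℕ) (t : Conf) (v x : V) : ℝ :=
  (∑ f : FI, if t ∈ wildAt R r₁ C₂ ρ n f x ∧ BranchTo t (bdSet N) x v then 1 else 0) +
  ∑ f : FI, ∑ u ∈ Finset.range (gridCard C₂ ρ),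
    if t ∈ slopeAt R r₁ C₂ ρ n f u x ∧
      BranchTo t (window (fSym f) (fk f) (sgrid C₂ ρ u) w D x) x v then 1 else 0

variable {γ₀ C r₁ ε β C₂ ρ w : ℝ} {R N n D B : ℕ} {t : Conf}

lemma score_nonneg (v x : V) : 0 ≤ score R r₁ C₂ ρ w N n D t v x := by
  unfold score
  refine add_nonneg (Finset.sum_nonneg fun f _ => ?_)
    (Finset.sum_nonneg fun f _ => Finset.sum_nonneg fun u _ => ?_) <;> split_ifs <;> norm_num

lemma one_le_score_wild {v x : V} {f : FI} (h1 : t ∈ wildAt R r₁ C₂ ρ n f x)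
    (h2 : BranchTo t (bdSet N) x v) : 1 ≤ score R r₁ C₂ ρ w N n D t v x := by
  classical
  unfold score
  refine le_add_of_le_of_nonneg ?_
    (Finset.sum_nonneg fun g _ => Finset.sum_nonneg fun u _ => by split_ifs <;> norm_num)
  refine le_trans ?_ (Finset.single_le_sum (fun g _ => by split_ifs <;> norm_num)
    (Finset.mem_univ f))
  rw [if_pos ⟨h1, h2⟩]

lemma one_le_score_slope {v x : V} {f : FI} {u : ℕ} (hu : u < gridCard C₂ ρ)
    (h1 : t ∈ slopeAt R r₁ C₂ ρ n f u x)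
    (h2 : BranchTo t (window (fSym f) (fk f) (sgrid C₂ ρ u) w D x) x v) :
    1 ≤ score R r₁ C₂ ρ w N n D t v x := by
  classical
  unfold score
  refine le_add_of_nonneg_of_le (Finset.sum_nonneg fun g _ => by split_ifs <;> norm_num) ?_
  refine le_trans ?_ (Finset.single_le_sum
    (fun g _ => Finset.sum_nonneg fun u _ => by split_ifs <;> norm_num) (Finset.mem_univ f))
  refine le_trans ?_ (Finset.single_le_sum (fun g _ => by split_ifs <;> norm_num)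
    (Finset.mem_range.2 hu))
  rw [if_pos ⟨h1, h2⟩]

/-- A set of levels with one scoring site each bounds the total score from below. -/
lemma card_le_score {σ : LatSym} {k : ℤ} {v : V} (S : Finset ℤ)
    (h : ∀ c ∈ S, ∃ x, fL σ k x = c ∧ InSq N x ∧ 1 ≤ score R r₁ C₂ ρ w N n D t v x) :
    (S.card : ℝ) ≤ ∑ x ∈ sqBox N, score R r₁ C₂ ρ w N n D t v x := by
  classical
  choose f hf using h
  set g : ℤ → V := fun c => if hc : c ∈ S then f c hc else 0 with hg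
  have hgc : ∀ c ∈ S, fL σ k (g c) = c ∧ InSq N (g c) ∧
      1 ≤ score R r₁ C₂ ρ w N n D t v (g c) := fun c hc => by
    simp only [hg, dif_pos hc]; exact hf c hc
  have hinj : Set.InjOn g S := fun a ha b hb e => by
    rw [← (hgc a ha).1, e, (hgc b hb).1]
  have h1 : (S.card : ℝ) = ∑ _x ∈ S.image g, (1 : ℝ) := by
    rw [Finset.sum_const, Finset.card_image_of_injOn hinj]; simp
  rw [h1]
  refine (Finset.sum_le_sum (g := fun x => score R r₁ C₂ ρ w N n D t v x) fun x hx => ?_).trans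
    (Finset.sum_le_sum_of_subset_of_nonneg (fun x hx => ?_) fun x _ _ => score_nonneg v x)
  · obtain ⟨c, hc, rfl⟩ := Finset.mem_image.1 hx
    exact (hgc c hc).2.2
  · obtain ⟨c, hc, rfl⟩ := Finset.mem_image.1 hx
    exact mem_sqBox.2 (hgc c hc).2.1

lemma exists_exit {γ : ℤ → V} (hγ : Function.Injective γ) (N : ℤ) :
    (∃ a, a < 0 ∧ ¬ InSq N (γ a)) ∧ ∃ a, 0 < a ∧ ¬ InSq N (γ a) := by
  have hfin : {m | InSq N (γ m)}.Finite :=
    ((Set.finite_Icc (-N, -N) (N, N)).preimage hγ.injOn).subset fun m ⟨h1, h2, h3, h4⟩ =>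
      ⟨⟨h1, h3⟩, ⟨h2, h4⟩⟩
  constructor
  · exact ((Set.Iio_infinite (0 : ℤ)).sdiff hfin).nonempty
  · exact ((Set.Ioi_infinite (0 : ℤ)).sdiff hfin).nonempty

lemma exists_hit_left {γ : ℤ → V} (hγ : IsBigeodesic t γ) (hB : InSq (N - 1 : ℤ) (γ 0)) :
    ∃ i₀, i₀ < 0 ∧ OnBd N (γ i₀) ∧ ∀ m, i₀ ≤ m → m ≤ 0 → InSq N (γ m) := by
  obtain ⟨a, ha, hout⟩ := (exists_exit hγ.inj N).1
  obtain ⟨m, -, h2, h3, h4⟩ := exists_bd (c := 0) ha.le (fun m _ _ => hγ.adj m)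
    (by simpa using hB) (by simpa using hout)
  exact ⟨m, h2, by simpa using h3, fun l h5 h6 => by simpa using h4 l h5 h6⟩

lemma exists_hit_right {γ : ℤ → V} (hγ : IsBigeodesic t γ) (hB : InSq (N - 1 : ℤ) (γ 0)) :
    ∃ i₁, 0 < i₁ ∧ OnBd N (γ i₁) ∧ ∀ m, 0 ≤ m → m ≤ i₁ → InSq N (γ m) := by
  obtain ⟨a, ha, hout⟩ := (exists_exit hγ.inj N).2
  obtain ⟨m, -, h2, h3, h4⟩ := exists_bd (γ := fun m => γ (-m)) (c := 0) (a := -a) (b := 0)
    (by omega)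
    (fun m _ _ => by
      have := (hγ.adj (-m - 1)).symm
      rwa [sub_add_cancel, show -m - 1 = -(m + 1) by ring] at this)
    (by simpa using hB) (by simpa using hout)
  exact ⟨-m, by omega, by simpa using h3, fun l h5 h6 => by
    simpa using h4 (-l) (by omega) (by omega)⟩

lemma exists_chord (hok : ChordOK γ₀ C r₁ ε R N t) {γ : ℤ → V} (hγ : IsBigeodesic t γ)
    {i₀ i₁ : ℤ} (h0 : i₀ < 0) (h1 : 0 < i₁) (hb0 : OnBd N (γ i₀)) (hb1 : OnBd N (γ i₁))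
    (hin : ∀ m, i₀ ≤ m → m ≤ i₁ → InSq N (γ m)) (hmid : InSq ⌊γ₀ * N / 8⌋ (γ 0)) :
    ∃ σ k, Chord γ₀ C r₁ ε R N t γ i₀ i₁ σ k := by
  obtain ⟨hlen, σ, hσ, k, hk, -, -, hfew, -⟩ := hok γ i₀ i₁ (segGeo_of_line hγ (h0.trans h1))
    hb0 hb1 ⟨0, h0.le, h1.le, hmid⟩
  exact ⟨σ, k, hγ, h0, h1, hin, hlen, hσ, hk, hfew⟩

/-- A site of the frame on level `c` of the path is wild. -/
def WildLev (R : ℕ) (r₁ C₂ ρ : ℝ) (n : ℕ) (t : Conf) (γ : ℤ → V) (i₁ : ℤ) (σ : LatSym) (k c : ℤ) :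
    Prop :=
  ∃ i, 0 < i ∧ i ≤ i₁ ∧ fL σ k (γ i) = c ∧ siteConf σ (γ i) t ∈ wildSite k R r₁ C₂ ρ n

/-- A good level which is not wild carries a tube. -/
lemma exists_tube {γ : ℤ → V} {i₀ i₁ : ℤ} {σ : LatSym} {k : ℤ}
    (hs : Scale γ₀ C ε β C₂ ρ w R N n D B) (h : Chord γ₀ C r₁ ε R N t γ i₀ i₁ σ k)
    (hB : InSq B (γ 0)) {c : ℤ} (hg : GoodLev r₁ β R N t γ i₀ i₁ σ k n c)
    (hw : ¬ WildLev R r₁ C₂ ρ n t γ i₁ σ k c) :
    ∃ (a b i : ℤ) (s : ℝ), 0 < i ∧ i ≤ i₁ ∧ fL σ k (γ i) = c ∧ i₀ ≤ a ∧ a < i ∧ i ≤ b ∧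
      fL σ k (γ a) = c - n ∧ |s| ≤ C₂ ∧
      (∀ m, a ≤ m → m ≤ b →
        |((fH σ (γ m) : ℝ) - fH σ (γ i)) - s * ((fL σ k (γ m) : ℝ) - c)| ≤ ρ * n) ∧
      (∀ m, i₀ ≤ m → m ≤ i₁ → c - n + R < fL σ k (γ m) → fL σ k (γ m) < c + n - R →
        a ≤ m ∧ m ≤ b) ∧
      ∀ s' : ℝ, |s - s'| ≤ ρ →
        siteConf σ (γ i) t ∈ slopeSite k R r₁ (C₂ + 3) n (s' - 2 * ρ) (s' + 2 * ρ) := by
  have hR := hs.hR
  have hn := hs.hn
  have hBB := hs.hB
  have hβN : 0 ≤ β * N := mul_nonneg hs.hβ.le (Nat.cast_nonneg N)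
  have hnn : (R : ℝ) < n := by nlinarith [hs.hC₂, Nat.cast_nonneg (α := ℝ) D]
  obtain ⟨a, b, i, j, hi, hi1, hfi, ha, hai, hb, hfa, hseg, hins⟩ :=
    exists_site h hs.hNn hB (by push_cast; linarith) (by exact_mod_cast hnn) hg
  have hnw : siteConf σ (γ i) t ∉ wildSite k R r₁ C₂ ρ n := fun hw' => hw ⟨i, hi, hi1, hfi, hw'⟩
  simp only [wildSite, Set.mem_ofPred_eq, not_exists, not_and, not_forall, not_lt] at hnw
  obtain ⟨s, hs', htube⟩ := hnw _ _ _ _ _ hseg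
  have hσ := h.perm
  have conv : ∀ m, ((sitePath σ (γ i) γ m).2 : ℝ) = (fH σ (γ m) : ℝ) - fH σ (γ i) ∧
      (lev k (sitePath σ (γ i) γ m) : ℝ) = (fL σ k (γ m) : ℝ) - c := fun m => by
    have e1 : (sitePath σ (γ i) γ m).2 = fH σ (γ m) - fH σ (γ i) := fH_sub hσ _ _
    have e2 : lev k (sitePath σ (γ i) γ m) = fL σ k (γ m) - c := by
      rw [← hfi]; exact fL_sub hσ k _ _
    rw [e1, e2]
    exact ⟨Int.cast_sub _ _, Int.cast_sub _ _⟩
  have hij : i ≤ b := (hseg.cross.le.trans hseg.cross.hi.le)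
  refine ⟨a, b, i, s, hi, hi1, hfi, ha, hai, hij, hfa, hs', fun m h1 h2 => ?_, hins,
    fun s' hs'' => ?_⟩
  · have := htube m h1 h2
    rwa [(conv m).1, (conv m).2] at this
  · have hn0 : (0 : ℝ) ≤ n := Nat.cast_nonneg n
    refine ⟨_, a, b, i, j, ⟨hseg.seg, hseg.cross, hseg.origin, hseg.heavy, hseg.lev₀, hseg.lev₁,
      hseg.strip, hseg.slope₀.trans ?_, hseg.slope₁.trans ?_⟩, ?_⟩
    · exact mul_le_mul_of_nonneg_right (by linarith) hn0
    · exact mul_le_mul_of_nonneg_right (by linarith) hn0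
    have h1 := abs_le.1 (htube a le_rfl (hai.le.trans hij))
    have h2 := abs_le.1 (htube b (hai.le.trans hij) le_rfl)
    rw [hseg.lev₀] at h1
    rw [hseg.lev₁] at h2
    push_cast at h1 h2
    obtain ⟨d1, d2⟩ := abs_le.1 hs''
    have := mul_le_mul_of_nonneg_right d1 hn0
    have := mul_le_mul_of_nonneg_right d2 hn0
    exact ⟨by linarith, by linarith, by linarith, by linarith⟩

/-- A fork near the middle of a good box is the branch point of many sites. -/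
theorem score_of_fork (hs : Scale γ₀ C ε β C₂ ρ w R N n D B) (hok : ChordOK γ₀ C r₁ ε R N t)
    {v : V} (hv : InSq B v) (hf : ForkV t v) :
    (2 * β * N - 1 - 3 * (ε * N)) / 2 ≤ ∑ x ∈ sqBox N, score R r₁ C₂ ρ w N n D t v x := by
  classical
  obtain ⟨γ, δ, hγ, hδ, h0, hcom, hne⟩ := hf
  have hpos : ∀ m : ℤ, 0 ≤ m → γ m = δ m := fun m hm => by
    simpa [Int.toNat_of_nonneg hm] using hcom m.toNat
  have hδ0 : δ 0 = v := (hpos 0 le_rfl).symm.trans h0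
  have hBR := hs.hB
  have hBN := hs.hBN
  have hv1 : InSq ((N : ℤ) - 1) v := inBox_mono (by omega) hv
  have hv8 : InSq ⌊γ₀ * N / 8⌋ v := inBox_mono (by
    rw [Int.le_floor]
    have := mul_le_mul_of_nonneg_right hs.hB8 (Nat.cast_nonneg (α := ℝ) N)
    push_cast
    linarith) hv
  obtain ⟨i₁, hi₁, hb1, hin1⟩ := exists_hit_right hγ (by rwa [h0])
  obtain ⟨i₀, hi₀, hb0, hin0⟩ := exists_hit_left hγ (by rwa [h0])
  obtain ⟨i₀', hi₀', hb0', hin0'⟩ := exists_hit_left hδ (by rwa [hδ0])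
  obtain ⟨σ, k, hc⟩ := exists_chord hok hγ hi₀ hi₁ hb0 hb1 (fun m h1 h2 =>
    (le_total m 0).elim (hin0 m h1) fun h => hin1 m h h2) (by rwa [h0])
  obtain ⟨σ', k', hc'⟩ := exists_chord hok hδ hi₀' hi₁ hb0' (hpos i₁ hi₁.le ▸ hb1)
    (fun m h1 h2 => (le_total m 0).elim (hin0' m h1) fun h => hpos m h ▸ hin1 m h h2)
    (by rwa [hδ0])
  obtain ⟨f, hfs, hfk⟩ := exists_frame hc.mem hc.frame
  obtain ⟨f', hfs', hfk'⟩ := exists_frame hc'.mem hc'.frame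
  have hg := card_good hc hs.hβ.le hs.hlev
  have hg' := card_good hc' hs.hβ.le hs.hlev
  set g := 2 * β * N - 1 - 3 * (ε * N)
  set S := (Levels β N).filter (GoodLev r₁ β R N t γ i₀ i₁ σ k n)
  set S' := (Levels β N).filter (GoodLev r₁ β R N t δ i₀' i₁ σ' k' n)
  have hγv : InSq B (γ 0) := by rwa [h0]
  have hδv : InSq B (δ 0) := by rwa [hδ0]
  have hbr : ∀ i, 0 ≤ i → BranchTo t (bdSet N) (γ i) v := fun i hi =>
    ⟨γ, δ, i₀, i₀', i, hγ, hδ, h0, hδ0, hne, hi₀, hi₀', mem_bdSet hb0, mem_bdSet hb0', hi, rfl,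
      (hpos i hi).symm⟩
  -- the wild cases
  by_cases hA : g / 2 ≤ ((S.filter (WildLev R r₁ C₂ ρ n t γ i₁ σ k)).card : ℝ)
  · refine hA.trans (card_le_score (σ := σ) (k := k) _ fun c hcS => ?_)
    obtain ⟨-, i, hi, hi', hfi, hwi⟩ := Finset.mem_filter.1 hcS
    refine ⟨γ i, hfi, hin1 i hi.le hi', one_le_score_wild (f := f) ?_ (hbr i hi.le)⟩
    rw [wildAt, hfs, hfk]; exact hwi
  by_cases hA' : g / 2 ≤ ((S'.filter (WildLev R r₁ C₂ ρ n t δ i₁ σ' k')).card : ℝ)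
  · refine hA'.trans (card_le_score (σ := σ') (k := k') _ fun c hcS => ?_)
    obtain ⟨-, i, hi, hi', hfi, hwi⟩ := Finset.mem_filter.1 hcS
    rw [← hpos i hi.le] at hfi hwi
    refine ⟨γ i, hfi, hin1 i hi.le hi', one_le_score_wild (f := f') ?_ (hbr i hi.le)⟩
    rw [wildAt, hfs', hfk']; exact hwi
  -- the tame case
  rw [not_le] at hA hA'
  have hgood := hs.hgood
  obtain ⟨c', hc'S, hc'w⟩ : ∃ c' ∈ S', ¬ WildLev R r₁ C₂ ρ n t δ i₁ σ' k' c' := by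
    by_contra hcon
    push Not at hcon
    rw [Finset.filter_eq_self.2 hcon] at hA'
    linarith
  obtain ⟨a', b', i', s', hi', hi'1, hfi', ha', hai', hib', hfa', hs'b, htube', hins', -⟩ :=
    exists_tube hs hc' hδv (Finset.mem_filter.1 hc'S).2 hc'w
  have htame : g / 2 ≤ ((S.filter fun c => ¬ WildLev R r₁ C₂ ρ n t γ i₁ σ k c).card : ℝ) := by
    have e := Finset.card_filter_add_card_filter_not (s := S) (WildLev R r₁ C₂ ρ n t γ i₁ σ k)
    have e' : ((S.filter (WildLev R r₁ C₂ ρ n t γ i₁ σ k)).card : ℝ) +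
        ((S.filter fun c => ¬ WildLev R r₁ C₂ ρ n t γ i₁ σ k c).card : ℝ) = (S.card : ℝ) := by
      exact_mod_cast e
    linarith
  refine htame.trans (card_le_score (σ := σ) (k := k) _ fun c hcS => ?_)
  obtain ⟨hcS, hcw⟩ := Finset.mem_filter.1 hcS
  obtain ⟨a, b, i, s, hi, hi1, hfi, ha, hai, hib, hfa, hsb, htube, hins, hslope⟩ :=
    exists_tube hs hc hγv (Finset.mem_filter.1 hcS).2 hcw
  obtain ⟨u, hu, hsu, hub⟩ := exists_grid hs.hρ hsb
  refine ⟨γ i, hfi, hin1 i hi.le hi1, one_le_score_slope (f := f) hu ?_ ?_⟩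
  · rw [slopeAt, hfs, hfk]; exact hslope _ hsu
  rw [hfs, hfk]
  set x := γ i with hx
  set su := sgrid C₂ ρ u
  have hσ := hc.perm
  have hσ' := hc'.perm
  have hk := hc.abs_frame
  have hk' := hc'.abs_frame
  obtain ⟨hc1, hc2⟩ := mem_Levels (Finset.mem_filter.1 hcS).1
  obtain ⟨hd1, hd2⟩ := mem_Levels (Finset.mem_filter.1 hc'S).1
  have hR := hs.hR
  have hn := hs.hn
  have hD := hs.hD
  have hρn := hs.hρn
  have hC₂ := hs.hC₂
  have hC2N : 0 ≤ C₂ * (β * N) :=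
    mul_nonneg hC₂ (mul_nonneg hs.hβ.le (Nat.cast_nonneg N))
  have hD0 : (0 : ℝ) ≤ D := Nat.cast_nonneg D
  have hvL : ∀ (τ : LatSym) (j : ℤ), SignedPerm τ → |j| ≤ 1 → |(fL τ j v : ℝ)| ≤ 2 * B :=
    fun τ j hτ hj => by
      have e : ((|fL τ j v| : ℤ) : ℝ) ≤ ((2 * (B : ℤ) : ℤ) : ℝ) := by
        exact_mod_cast (abs_fL_le hτ hj v).trans (n1_le_of_inSq hv)
      push_cast at e
      exact e
  have hvσ := abs_le.1 (hvL σ k hσ hk)
  have hvσ' := abs_le.1 (hvL σ' k' hσ' hk')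
  -- `v` lies in the tube of `γ`
  obtain ⟨ha0, -⟩ : a ≤ 0 ∧ 0 ≤ b := by
    refine hins 0 hi₀.le hi₁.le ?_ ?_ <;> rw [h0] <;> rw [← Int.cast_lt (R := ℝ)] <;>
      push_cast <;> linarith
  have htv := htube 0 ha0 (hi.le.trans hib)
  rw [h0] at htv
  -- `x` is close to `v`
  have hLxv : |(fL σ k v : ℝ) - c| ≤ 8 * (β * N) := by rw [abs_le]; constructor <;> linarith
  have hHxv : |(fH σ v : ℝ) - fH σ x| ≤ C₂ * (8 * (β * N)) + β * N := by
    have e := abs_add_le (((fH σ v : ℝ) - fH σ x) - s * ((fL σ k v : ℝ) - c))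
      (s * ((fL σ k v : ℝ) - c))
    rw [sub_add_cancel, abs_mul] at e
    have := mul_le_mul hsb hLxv (abs_nonneg _) hC₂
    linarith
  have hn1 : (n1 (x - v) : ℝ) ≤ (16 * C₂ + 10) * (β * N) := by
    have e : (n1 (x - v) : ℝ) ≤ (((|fL σ k (x - v)| + 2 * |fH σ (x - v)|) : ℤ) : ℝ) := by
      exact_mod_cast n1_le hσ hk (x - v)
    rw [fL_sub hσ, fH_sub hσ, hfi] at e
    push_cast at e
    rw [abs_sub_comm (c : ℝ), abs_sub_comm (fH σ x : ℝ)] at e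
    linarith
  have hvin : InSq ((D : ℤ) - 1) (v - x) := by
    refine inSq_of_n1 ?_
    rw [n1_sub_comm]
    have : ((n1 (x - v) : ℤ) : ℝ) ≤ (((D : ℤ) - 1 : ℤ) : ℝ) := by push_cast; linarith
    exact_mod_cast this
  have hxn : |(fL σ' k' x : ℝ)| ≤ (16 * C₂ + 12) * (β * N) := by
    have e := (abs_fL_le hσ' hk' x).trans (show n1 x ≤ n1 (x - v) + 2 * B by
      have := n1_sub_le x v 0
      simp only [sub_zero] at this
      linarith [n1_le_of_inSq hv])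
    have e' : ((|fL σ' k' x| : ℤ) : ℝ) ≤ ((n1 (x - v) + 2 * B : ℤ) : ℝ) := by exact_mod_cast e
    push_cast at e'
    linarith
  obtain ⟨hx1, hx2⟩ := abs_le.1 hxn
  -- both `v` and `x` lie in the tube of `δ`
  obtain ⟨ha0', hb0''⟩ : a' ≤ 0 ∧ 0 ≤ b' := by
    refine hins' 0 hi₀'.le hi₁.le ?_ ?_ <;> rw [hδ0] <;> rw [← Int.cast_lt (R := ℝ)] <;>
      push_cast <;> linarith
  have hδi : δ i = x := (hpos i hi.le).symm
  obtain ⟨hai'', hib''⟩ : a' ≤ i ∧ i ≤ b' := by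
    refine hins' i (by omega) hi1 ?_ ?_ <;> rw [hδi] <;> rw [← Int.cast_lt (R := ℝ)] <;>
      push_cast <;> linarith
  have hout : ¬ InSq D (γ a - x) := fun hc0 => by
    have e : ((|fL σ k (γ a - x)| : ℤ) : ℝ) ≤ ((2 * (D : ℤ) : ℤ) : ℝ) := by
      exact_mod_cast (abs_fL_le hσ hk _).trans (n1_le_of_inSq hc0)
    rw [fL_sub hσ, hfa, hfi] at e
    push_cast at e
    have := (abs_le.1 e).1
    linarith
  have hout' : ¬ InSq D (δ a' - x) := fun hc0 => by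
    have e : ((|fL σ' k' (δ a' - x)| : ℤ) : ℝ) ≤ ((2 * (D : ℤ) : ℤ) : ℝ) := by
      exact_mod_cast (abs_fL_le hσ' hk' _).trans (n1_le_of_inSq hc0)
    rw [fL_sub hσ', hfa'] at e
    push_cast at e
    have := (abs_le.1 e).1
    linarith
  obtain ⟨m, hm1, hm2, hm3, -⟩ := exists_bd (γ := γ) (c := x) ha0 (fun m _ _ => hγ.adj m)
    (by rwa [h0]) hout
  obtain ⟨m', hm1', hm2', hm3', -⟩ := exists_bd (γ := δ) (c := x) ha0' (fun m _ _ => hδ.adj m)
    (by rwa [hδ0]) hout'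
  refine ⟨γ, δ, m, m', i, hγ, hδ, h0, hδ0, hne, hm2, hm2', mem_window hσ hm3 ?_,
    mem_window hσ hm3' ?_, hi.le, rfl, hδi⟩
  · -- the leaf on `γ`
    have h1 := htube m hm1.le (by omega)
    have h2 : ((|fL σ k (γ m - x)| : ℤ) : ℝ) ≤ ((2 * (D : ℤ) : ℤ) : ℝ) := by
      exact_mod_cast (abs_fL_le hσ hk _).trans (n1_le_of_inSq hm3.1)
    rw [fL_sub hσ, hfi] at h2
    push_cast at h2
    rw [hfi]
    have e := abs_add_le (((fH σ (γ m) : ℝ) - fH σ x) - s * ((fL σ k (γ m) : ℝ) - c))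
      ((s - su) * ((fL σ k (γ m) : ℝ) - c))
    rw [abs_mul] at e
    have := mul_le_mul hsu h2 (abs_nonneg _) hs.hρ.le
    have := hs.hw1
    have h2D : ρ * (2 * D) ≤ ρ * n := mul_le_mul_of_nonneg_left (by linarith) hs.hρ.le
    refine le_trans ?_ (show ρ * n + ρ * (2 * D) ≤ w by linarith)
    refine le_trans (le_of_eq ?_) (e.trans (by linarith))
    congr 1; ring
  · -- the leaf on `δ`
    have h3a := abs_le.1 (htube' m' hm1'.le (by omega))
    have h3b := abs_le.1 (htube' i hai'' hib'')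
    have h3c := abs_le.1 (htube' 0 ha0' hb0'')
    rw [hδi] at h3b
    rw [hδ0] at h3c
    have e := form_transfer hσ hσ' hc.frame hc'.frame (s := su) (s' := s') (S := C₂ + 1)
      (w := 2 * (ρ * n)) (b := 2 * β * N) (W := 2 * D) (D := x - v) (Z := δ m' - x)
      (by linarith) (by linarith)
      (mul_pos (mul_pos two_pos hs.hβ) (Nat.cast_pos.2 (by omega))) ?_ ?_ ?_ ?_ ?_
    · rw [fH_sub hσ, fL_sub hσ] at e
      push_cast at e
      exact e.trans hs.hw2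
    · have e' : ((|fL σ k (x - v)| : ℤ) : ℝ) ≤ ((n1 (x - v) : ℤ) : ℝ) := by
        exact_mod_cast abs_fL_le hσ hk (x - v)
      rw [fL_sub hσ, hfi] at e'
      push_cast at e'
      linarith [le_abs_self ((c : ℝ) - fL σ k v)]
    · have := n1_le_of_inSq hm3'.1
      exact_mod_cast this
    · rw [fH_sub hσ, fL_sub hσ, hfi]
      push_cast
      have e' := abs_add_le (((fH σ v : ℝ) - fH σ x) - s * ((fL σ k v : ℝ) - c))
        ((s - su) * ((fL σ k v : ℝ) - c))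
      rw [abs_mul (s - su)] at e'
      have := mul_le_mul hsu hLxv (abs_nonneg _) hs.hρ.le
      have h8 : ρ * (8 * (β * N)) ≤ ρ * n := mul_le_mul_of_nonneg_left (by linarith) hs.hρ.le
      rw [← abs_neg]
      refine le_trans (le_of_eq ?_) (e'.trans (by linarith))
      congr 1; ring
    · rw [fH_sub hσ', fL_sub hσ']
      push_cast
      rw [abs_le]
      constructor <;> linarith [h3b.1, h3b.2, h3c.1, h3c.2]
    · rw [fH_sub hσ', fL_sub hσ']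
      push_cast
      rw [abs_le]
      constructor <;> linarith [h3b.1, h3b.2, h3a.1, h3a.2]

end Vale.Agent.P158.ForkAll
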