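import Vale.Agent.P158.ForkAll.Det
import Vale.Agent.P158.BasicLaw

/-!
The expectation of the deterministic count.
-/

open MeasureTheory Filter Topology

namespace Vale.Agent.P158.ForkAll

variable {G : Measure ℝ} {γ₀ C r₁ ε β C₂ ρ w : ℝ} {R N n D B : ℕ} {t : Conf}

/-- The configurations with a fork at the origin. -/
def forkSet : Set Conf := {t | ForkV t 0}

lemma measurableSet_forkSet : MeasurableSet (NN ∩ forkSet) := by
  set C : Set (Conf × ((ℤ → V) × (ℤ → V))) :=
    {q | (q.1 ∈ NN ∧ IsBigeodesic q.1 q.2.1) ∧ (q.1 ∈ NN ∧ IsBigeodesic q.1 q.2.2) ∧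
      (∀ n : ℕ, q.2.1 n = q.2.2 n) ∧ q.2.1 (-1) ≠ q.2.2 (-1)}
  have h1 : ∀ i : ℤ, Continuous fun q : Conf × ((ℤ → V) × (ℤ → V)) => (q.2.1 i, q.2.2 i) :=
    fun i => ((continuous_apply i).comp (continuous_fst.comp continuous_snd)).prodMk
      ((continuous_apply i).comp (continuous_snd.comp continuous_snd))
  have hC : IsClosed C := by
    refine (isClosed_isBigeodesic.preimage
      (continuous_fst.prodMk (continuous_fst.comp continuous_snd))).inter
      ((isClosed_isBigeodesic.preimage
        (continuous_fst.prodMk (continuous_snd.comp continuous_snd))).inter (IsClosed.inter ?_ ?_))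
    · show IsClosed {q : Conf × ((ℤ → V) × (ℤ → V)) | ∀ n : ℕ, q.2.1 n = q.2.2 n}
      simp only [Set.ofPred_forall]
      exact isClosed_iInter fun n => (isClosed_discrete {w : V × V | w.1 = w.2}).preimage (h1 n)
    · exact (isClosed_discrete {w : V × V | w.1 ≠ w.2}).preimage (h1 (-1))
  convert measurableSet_exists_paths (v := (0 : V)) (w := (0 : V)) hC
  ext t
  constructor
  · rintro ⟨hn, γ, δ, hγ, hδ, h0, hcom, hne⟩
    exact ⟨(γ, δ), ⟨⟨h0, hγ.adj⟩, by simpa [h0] using (hcom 0).symm, hδ.adj⟩,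
      ⟨hn, hγ⟩, ⟨hn, hδ⟩, hcom, hne⟩
  · rintro ⟨⟨γ, δ⟩, ⟨⟨h0, -⟩, -⟩, ⟨hn, hγ⟩, ⟨-, hδ⟩, hcom, hne⟩
    exact ⟨hn, γ, δ, hγ, hδ, h0, hcom, hne⟩

lemma forkV_of_shift {v : V} (h : shift v t ∈ forkSet) : ForkV t v := by
  obtain ⟨γ, δ, hγ, hδ, h0, hcom, hne⟩ := h
  exact ⟨fun i => γ i + v, fun i => δ i + v, (isBigeodesic_shift v t γ).1 hγ,
    (isBigeodesic_shift v t δ).1 hδ, by simp [h0], fun n => by simp [hcom n],
    fun he => hne (add_right_cancel he)⟩

lemma mem_forkSet_shift {γ δ : ℤ → V} (hγ : IsBigeodesic t γ) (hδ : IsBigeodesic t δ)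
    (hcom : ∀ n : ℕ, γ n = δ n) (hne : γ (-1) ≠ δ (-1)) : shift (γ 0) t ∈ forkSet :=
  ⟨fun i => γ i - γ 0, fun i => δ i - γ 0,
    (isBigeodesic_shift _ t _).2 (by simpa using hγ),
    (isBigeodesic_shift _ t _).2 (by simpa using hδ), by simp, fun n => by simp [hcom n],
    fun he => hne (sub_left_inj.1 he)⟩

lemma ite_count_le (s : Finset V) {P : Prop} [Decidable P] (Q : V → Prop) [DecidablePred Q]
    {c : ℝ} (h : ((s.filter Q).card : ℝ) ≤ c) :
    ∑ v ∈ s, (if P ∧ Q v then (1 : ℝ) else 0) ≤ if P then c else 0 := by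
  by_cases hP : P
  · simp only [hP, true_and, if_true, Finset.sum_boole]
    exact h
  · simp [hP]

open Classical in
/-- The forks of a good configuration are few compared with the sites. -/
lemma forks_le (hs : Scale γ₀ C ε β C₂ ρ w R N n D B) (hwD : 4 * w < D) (htf : TieFree t)
    (hok : ChordOK γ₀ C r₁ ε R N t) :
    (2 * β * N - 1 - 3 * (ε * N)) / 2 * (((sqBox B).filter (ForkV t)).card : ℝ) ≤
      ∑ x ∈ sqBox N, ∑ f : FI,
        ((if t ∈ wildAt R r₁ C₂ ρ n f x then ((8 * N + 1 : ℕ) : ℝ) else 0) +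
          ∑ u ∈ Finset.range (gridCard C₂ ρ),
            if t ∈ slopeAt R r₁ C₂ ρ n f u x then 4 * (16 * w + 2) else 0) := by
  set F := (sqBox B).filter (ForkV t)
  calc (2 * β * N - 1 - 3 * (ε * N)) / 2 * (F.card : ℝ)
      = ∑ _v ∈ F, (2 * β * N - 1 - 3 * (ε * N)) / 2 := by
        rw [Finset.sum_const, nsmul_eq_mul, mul_comm]
    _ ≤ ∑ v ∈ F, ∑ x ∈ sqBox N, score R r₁ C₂ ρ w N n D t v x :=
        Finset.sum_le_sum fun v hv => score_of_fork hs hok
          (mem_sqBox.1 (Finset.mem_filter.1 hv).1) (Finset.mem_filter.1 hv).2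
    _ = ∑ x ∈ sqBox N, ∑ v ∈ F, score R r₁ C₂ ρ w N n D t v x := Finset.sum_comm
    _ ≤ _ := Finset.sum_le_sum fun x _ => by
        simp only [score]
        rw [Finset.sum_add_distrib, Finset.sum_add_distrib, Finset.sum_comm,
          Finset.sum_comm (s := F) (t := (Finset.univ : Finset FI))]
        refine add_le_add (Finset.sum_le_sum fun f _ => ?_) (Finset.sum_le_sum fun f _ => ?_)
        · exact ite_count_le F _
            (Nat.cast_le.2 ((card_branchTo_le htf _ x F).trans (card_bdSet_le N)))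
        · rw [Finset.sum_comm]
          refine Finset.sum_le_sum fun u _ => ite_count_le F _ ?_
          refine (Nat.cast_le.2 (card_branchTo_le htf _ x F)).trans ?_
          have hw0 : 0 ≤ w := le_trans (by have := hs.hρ; positivity) hs.hw1
          have h := card_window_le (fSym_perm f) (k := fk f) (fk_mem f)
            (s := sgrid C₂ ρ u) (w := w) hwD x
          rwa [abs_of_nonneg hw0] at h

/-- The first moment of the count. -/
lemma expect_le (hG : LawGen G) (hs : Scale γ₀ C ε β C₂ ρ w R N n D B) (hwD : 4 * w < D) :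
    (2 * β * N - 1 - 3 * (ε * N)) / 2 * (sqBox B).card * (law G).real forkSet ≤
      (2 * β * N - 1 - 3 * (ε * N)) / 2 * (sqBox B).card *
          (law G).real {t | ¬ ChordOK γ₀ C r₁ ε R N t} +
        (sqBox N).card * ∑ f : FI,
          (((8 * N + 1 : ℕ) : ℝ) * (law G).real (wildSite (fk f) R r₁ C₂ ρ n) +
            4 * (16 * w + 2) * ∑ u ∈ Finset.range (gridCard C₂ ρ), (law G).real
              (slopeSite (fk f) R r₁ (C₂ + 3) n (sgrid C₂ ρ u - 2 * ρ) (sgrid C₂ ρ u + 2 * ρ))) := by
  classical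
  have := hG.prob
  have := law_isProbG hG
  set μ := law G with hμ
  set g := (2 * β * N - 1 - 3 * (ε * N)) / 2
  set c₁ : ℝ := ((8 * N + 1 : ℕ) : ℝ)
  set c₂ : ℝ := 4 * (16 * w + 2)
  have hg : 0 ≤ g := div_nonneg hs.hgood.le two_pos.le
  have hw0 : 0 ≤ w := le_trans (by have := hs.hρ; positivity) hs.hw1
  have hc₁ : 0 ≤ c₁ := Nat.cast_nonneg _
  have hc₂ : 0 ≤ c₂ := by positivity
  set F : V → Set Conf := fun v => shift v ⁻¹' (NN ∩ forkSet)
  set Bad := toMeasurable μ {t | ¬ ChordOK γ₀ C r₁ ε R N t}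
  set W : V → FI → Set Conf := fun x f => toMeasurable μ (wildAt R r₁ C₂ ρ n f x)
  set S : V → FI → ℕ → Set Conf := fun x f u => toMeasurable μ (slopeAt R r₁ C₂ ρ n f u x)
  have hFm : ∀ v, MeasurableSet (F v) := fun v => measurableSet_forkSet.preimage (measurePreserving_shift (G := G) v).measurable
  have hBm : MeasurableSet Bad := measurableSet_toMeasurable _ _
  have hWm : ∀ x f, MeasurableSet (W x f) := fun x f => measurableSet_toMeasurable _ _
  have hSm : ∀ x f u, MeasurableSet (S x f u) := fun x f u => measurableSet_toMeasurable _ _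
  have hFv : ∀ v, μ.real (F v) = μ.real forkSet := by
    intro v
    rw [measureReal_def, measureReal_def, hμ]
    refine congrArg ENNReal.toReal ?_
    rw [law_shift_preimage]
    refine measure_congr ((law_ae_nonnegG hG).mono fun t ht => ?_)
    show (t ∈ NN ∩ forkSet) = (t ∈ forkSet)
    simp [show t ∈ NN from ht]
  have hBv : μ.real Bad = μ.real {t | ¬ ChordOK γ₀ C r₁ ε R N t} := by
    rw [measureReal_def, measureReal_def, measure_toMeasurable]
  have hWv : ∀ x f, μ.real (W x f) = μ.real (wildSite (fk f) R r₁ C₂ ρ n) := fun x f => by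
    rw [measureReal_def, measureReal_def, measure_toMeasurable]
    exact congrArg ENNReal.toReal (((fSym f).comp (shiftSym (-x))).symm.law_act_preimage _)
  have hSv : ∀ x f u, μ.real (S x f u) = μ.real
      (slopeSite (fk f) R r₁ (C₂ + 3) n (sgrid C₂ ρ u - 2 * ρ) (sgrid C₂ ρ u + 2 * ρ)) :=
    fun x f u => by
      rw [measureReal_def, measureReal_def, measure_toMeasurable]
      exact congrArg ENNReal.toReal (((fSym f).comp (shiftSym (-x))).symm.law_act_preimage _)
  have hint : ∀ (c : ℝ) {s : Set Conf}, MeasurableSet s →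
      Integrable (fun t => c * s.indicator 1 t) μ := fun c s hm =>
    ((integrable_const (1 : ℝ)).indicator hm).const_mul c
  have hpt : ∀ᵐ t ∂μ, ∑ v ∈ sqBox B, g * (F v).indicator 1 t ≤
      g * (sqBox B).card * Bad.indicator 1 t + ∑ x ∈ sqBox N, ∑ f : FI,
        (c₁ * (W x f).indicator 1 t +
          ∑ u ∈ Finset.range (gridCard C₂ ρ), c₂ * (S x f u).indicator 1 t) := by
    filter_upwards [ae_tieFreeG hG] with t htf
    have hrest : 0 ≤ ∑ x ∈ sqBox N, ∑ f : FI, (c₁ * (W x f).indicator 1 t +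
        ∑ u ∈ Finset.range (gridCard C₂ ρ), c₂ * (S x f u).indicator 1 t) := by
      refine Finset.sum_nonneg fun x _ => Finset.sum_nonneg fun f _ => add_nonneg ?_
        (Finset.sum_nonneg fun u _ => ?_)
      · exact mul_nonneg hc₁ (Set.indicator_nonneg (fun _ _ => zero_le_one) _)
      · exact mul_nonneg hc₂ (Set.indicator_nonneg (fun _ _ => zero_le_one) _)
    by_cases hb : t ∈ Bad
    · rw [Set.indicator_of_mem hb, Pi.one_apply, mul_one]
      refine le_trans ?_ (le_add_of_nonneg_right hrest)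
      rw [mul_comm g, ← nsmul_eq_mul, ← Finset.sum_const]
      refine Finset.sum_le_sum fun v _ => mul_le_of_le_one_right hg ?_
      exact Set.indicator_le_self' (fun _ _ => zero_le_one) t
    · have hok : ChordOK γ₀ C r₁ ε R N t := by
        by_contra hcon
        exact hb (subset_toMeasurable _ _ hcon)
      rw [Set.indicator_of_notMem hb, mul_zero, zero_add, ← Finset.mul_sum]
      refine le_trans (mul_le_mul_of_nonneg_left ?_ hg) ((forks_le hs hwD htf hok).trans
        (Finset.sum_le_sum fun x _ => Finset.sum_le_sum fun f _ => add_le_add ?_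
          (Finset.sum_le_sum fun u _ => ?_)))
      · simp only [Set.indicator_apply, Pi.one_apply, Finset.sum_boole]
        refine Nat.cast_le.2 (Finset.card_le_card fun v hv => ?_)
        obtain ⟨hv1, hv2⟩ := Finset.mem_filter.1 hv
        exact Finset.mem_filter.2 ⟨hv1, forkV_of_shift hv2.2⟩
      · split_ifs with h
        · rw [Set.indicator_of_mem (show t ∈ W x f from subset_toMeasurable _ _ h)]; simp [c₁]
        · exact mul_nonneg hc₁ (Set.indicator_nonneg (fun _ _ => zero_le_one) _)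
      · split_ifs with h
        · rw [Set.indicator_of_mem (show t ∈ S x f u from subset_toMeasurable _ _ h)]; simp [c₂]
        · exact mul_nonneg hc₂ (Set.indicator_nonneg (fun _ _ => zero_le_one) _)
  have hF : ∀ v ∈ sqBox B, Integrable (fun t => g * (F v).indicator 1 t) μ := fun v _ =>
    hint g (hFm v)
  have hS : ∀ x f, ∀ u ∈ Finset.range (gridCard C₂ ρ),
      Integrable (fun t => c₂ * (S x f u).indicator 1 t) μ := fun x f u _ => hint c₂ (hSm x f u)
  have hW : ∀ x f, Integrable (fun t => c₁ * (W x f).indicator 1 t +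
      ∑ u ∈ Finset.range (gridCard C₂ ρ), c₂ * (S x f u).indicator 1 t) μ := fun x f =>
    (hint c₁ (hWm x f)).add (integrable_finsetSum _ (hS x f))
  have hX : ∀ x ∈ sqBox N, Integrable (fun t => ∑ f : FI, (c₁ * (W x f).indicator 1 t +
      ∑ u ∈ Finset.range (gridCard C₂ ρ), c₂ * (S x f u).indicator 1 t)) μ := fun x _ =>
    integrable_finsetSum _ fun f _ => hW x f
  have h := integral_mono_ae (integrable_finsetSum _ hF)
    ((hint (g * (sqBox B).card) hBm).add (integrable_finsetSum _ hX)) hpt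
  simp only [Pi.add_apply] at h
  rw [integral_finsetSum _ hF, integral_add (hint _ hBm) (integrable_finsetSum _ hX),
    integral_finsetSum _ hX] at h
  simp only [integral_const_mul, integral_indicator_one hBm, integral_indicator_one (hFm _),
    hFv, hBv, Finset.sum_const, nsmul_eq_mul] at h
  have hterm : ∀ x, ∫ t, ∑ f : FI, (c₁ * (W x f).indicator 1 t +
      ∑ u ∈ Finset.range (gridCard C₂ ρ), c₂ * (S x f u).indicator 1 t) ∂μ = ∑ f : FI,
        (c₁ * μ.real (wildSite (fk f) R r₁ C₂ ρ n) + c₂ * ∑ u ∈ Finset.range (gridCard C₂ ρ),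
          μ.real (slopeSite (fk f) R r₁ (C₂ + 3) n (sgrid C₂ ρ u - 2 * ρ)
            (sgrid C₂ ρ u + 2 * ρ))) := by
    intro x
    rw [integral_finsetSum _ fun f _ => hW x f]
    refine Finset.sum_congr rfl fun f _ => ?_
    rw [integral_add (hint c₁ (hWm x f)) (integrable_finsetSum _ (hS x f)),
      integral_finsetSum _ (hS x f), Finset.mul_sum, integral_const_mul,
      integral_indicator_one (hWm x f), hWv]
    congr 1
    exact Finset.sum_congr rfl fun u _ => by
      rw [integral_const_mul, integral_indicator_one (hSm x f u), hSv]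
  simp only [hterm, Finset.sum_const, nsmul_eq_mul] at h
  linarith

end Vale.Agent.P158.ForkAll
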