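import Vale.Agent.P158.Spec3
import Vale.Agent.P158.Order

/-!
Elementary geometry for forks of bigeodesics without directions: frames as linear forms, crossings
of levels, the boundary of a box, and the count of boundary points near a line.
-/

open MeasureTheory Filter

namespace Vale.Agent.P158.ForkAll

/-- The level form of a frame. -/
def fL (σ : LatSym) (k : ℤ) (z : V) : ℤ := lev k (σ.vmap z)

/-- The height form of a frame. -/
def fH (σ : LatSym) (z : V) : ℤ := (σ.vmap z).2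

/-- The `ℓ¹` size of a vertex. -/
def n1 (z : V) : ℤ := |z.1| + |z.2|

/-- Either a signed identity or a signed exchange of the coordinates. -/
def SignedPerm (σ : LatSym) : Prop :=
  ∃ a b c d : ℤ, (∀ z, σ.vmap z = (a * z.1 + b * z.2, c * z.1 + d * z.2)) ∧
    ((|a| = 1 ∧ b = 0 ∧ c = 0 ∧ |d| = 1) ∨ (a = 0 ∧ |b| = 1 ∧ |c| = 1 ∧ d = 0))

lemma signedPerm_of_mem {σ : LatSym} (h : σ ∈ frameSyms) : SignedPerm σ := by
  simp only [frameSyms, List.mem_cons, List.not_mem_nil, or_false] at h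
  rcases h with rfl | rfl | rfl | rfl | rfl | rfl
  · exact ⟨1, 0, 0, 1, fun z => by ext <;> simp, by simp⟩
  · exact ⟨0, 1, 1, 0, fun z => by ext <;> simp, by simp⟩
  · exact ⟨1, 0, 0, -1, fun z => by ext <;> simp, by simp⟩
  · exact ⟨-1, 0, 0, 1, fun z => by ext <;> simp [negXSym, LatSym.comp], by simp⟩
  · exact ⟨-1, 0, 0, -1, fun z => by ext <;> simp [negSym, negXSym, LatSym.comp], by simp⟩
  · exact ⟨0, -1, -1, 0, fun z => by ext <;> simp [negSym, negXSym, LatSym.comp], by simp⟩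

section Perm

variable {σ : LatSym} (hσ : SignedPerm σ)

include hσ

lemma vmap_add (u z : V) : σ.vmap (u + z) = σ.vmap u + σ.vmap z := by
  obtain ⟨a, b, c, d, h, -⟩ := hσ
  rw [h, h, h]
  ext <;> simp <;> ring

lemma vmap_sub (u z : V) : σ.vmap (u - z) = σ.vmap u - σ.vmap z := by
  obtain ⟨a, b, c, d, h, -⟩ := hσ
  rw [h, h, h]
  ext <;> simp <;> ring

lemma n1_vmap (z : V) : n1 (σ.vmap z) = n1 z := by
  obtain ⟨a, b, c, d, h, hc⟩ := hσ
  rw [n1, h, n1]
  rcases hc with ⟨ha, rfl, rfl, hd⟩ | ⟨rfl, hb, hc, rfl⟩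
  · simp [abs_mul, ha, hd]
  · simp [abs_mul, hb, hc, add_comm]

lemma fL_sub (k : ℤ) (u z : V) : fL σ k (u - z) = fL σ k u - fL σ k z := by
  simp only [fL, vmap_sub hσ, lev, Prod.fst_sub, Prod.snd_sub]
  ring

lemma fH_sub (u z : V) : fH σ (u - z) = fH σ u - fH σ z := by
  simp [fH, vmap_sub hσ]

lemma abs_fL_le {k : ℤ} (hk : |k| ≤ 1) (z : V) : |fL σ k z| ≤ n1 z := by
  rw [← n1_vmap hσ z, fL, lev, n1]
  refine (abs_add_le _ _).trans (add_le_add le_rfl ?_)
  rw [abs_mul]
  exact mul_le_of_le_one_left (abs_nonneg _) hk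

lemma abs_fH_le (z : V) : |fH σ z| ≤ n1 z := by
  rw [← n1_vmap hσ z, fH, n1]
  exact le_add_of_nonneg_left (abs_nonneg _)

lemma n1_le {k : ℤ} (hk : |k| ≤ 1) (z : V) : n1 z ≤ |fL σ k z| + 2 * |fH σ z| := by
  rw [← n1_vmap hσ z, fL, lev, fH, n1]
  have h1 : |(σ.vmap z).1| ≤ |(σ.vmap z).1 + k * (σ.vmap z).2| + |k * (σ.vmap z).2| := by
    have := abs_sub ((σ.vmap z).1 + k * (σ.vmap z).2) (k * (σ.vmap z).2)
    rwa [add_sub_cancel_right] at this
  have h2 : |k * (σ.vmap z).2| ≤ |(σ.vmap z).2| := by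
    rw [abs_mul]; exact mul_le_of_le_one_left (abs_nonneg _) hk
  linarith

/-- The distance from a line of slope `s` through the origin is a linear form with bounded
coefficients, one of them at least a half. -/
lemma exists_form {k : ℤ} (hk : k = 0 ∨ k = 1) (s : ℝ) :
    ∃ p q : ℝ, (∀ z : V, (fH σ z : ℝ) - s * fL σ k z = p * z.1 + q * z.2) ∧
      |p| ≤ 1 + |s| ∧ |q| ≤ 1 + |s| ∧ (1 / 2 ≤ |p| ∨ 1 / 2 ≤ |q|) := by
  obtain ⟨a, b, c, d, h, hc⟩ := hσ
  refine ⟨c - s * (a + k * c), d - s * (b + k * d), fun z => ?_, ?_⟩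
  · simp only [fH, fL, lev, h]; push_cast; ring
  have hk' : (k : ℝ) = 0 ∨ (k : ℝ) = 1 := by exact_mod_cast hk
  have hs := abs_nonneg s
  rcases hc with ⟨ha, rfl, rfl, hd⟩ | ⟨rfl, hb, hc, rfl⟩
  · have ha' : |(a : ℝ)| = 1 := by exact_mod_cast ha
    have hd' : |(d : ℝ)| = 1 := by exact_mod_cast hd
    simp only [Int.cast_zero, mul_zero, add_zero, zero_add, zero_sub, abs_neg, abs_mul, ha',
      mul_one]
    have hq : |(d : ℝ) - s * (k * d)| = |1 - s * k| := by
      rw [show (d : ℝ) - s * (k * d) = (1 - s * k) * d by ring, abs_mul, hd', mul_one]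
    rw [hq]
    refine ⟨by linarith, ?_, ?_⟩
    · rcases hk' with e | e <;> rw [e]
      · simp
      · rw [mul_one]; exact (abs_sub _ _).trans (by rw [abs_one])
    · rcases le_or_gt (1 / 2) |s| with h2 | h2
      · exact Or.inl h2
      · refine Or.inr ?_
        rcases hk' with e | e <;> rw [e]
        · simp; norm_num
        · rw [mul_one]
          have := abs_sub_abs_le_abs_sub (1 : ℝ) s
          rw [abs_one] at this
          linarith
  · have hb' : |(b : ℝ)| = 1 := by exact_mod_cast hb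
    have hc' : |(c : ℝ)| = 1 := by exact_mod_cast hc
    simp only [Int.cast_zero, mul_zero, add_zero, zero_add, zero_sub, abs_neg, abs_mul, hb',
      mul_one]
    have hq : |(c : ℝ) - s * (k * c)| = |1 - s * k| := by
      rw [show (c : ℝ) - s * (k * c) = (1 - s * k) * c by ring, abs_mul, hc', mul_one]
    rw [hq]
    refine ⟨?_, by linarith, ?_⟩
    · rcases hk' with e | e <;> rw [e]
      · simp
      · rw [mul_one]; exact (abs_sub _ _).trans (by rw [abs_one])
    · rcases le_or_gt (1 / 2) |s| with h2 | h2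
      · exact Or.inr h2
      · refine Or.inl ?_
        rcases hk' with e | e <;> rw [e]
        · simp; norm_num
        · rw [mul_one]
          have := abs_sub_abs_le_abs_sub (1 : ℝ) s
          rw [abs_one] at this
          linarith

/-- A vector nearly killed by two forms transfers the bound to every vector nearly killed by the
second of them. -/
lemma form_transfer {σ' : LatSym} (hσ' : SignedPerm σ') {k k' : ℤ} (hk : k = 0 ∨ k = 1)
    (hk' : k' = 0 ∨ k' = 1) {s s' S w b W : ℝ} (hs : |s| ≤ S) (hs' : |s'| ≤ S) (hb : 0 < b)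
    {D Z : V} (hD : b ≤ (n1 D : ℝ)) (hZ : (n1 Z : ℝ) ≤ W)
    (h1 : |(fH σ D : ℝ) - s * fL σ k D| ≤ w) (h2 : |(fH σ' D : ℝ) - s' * fL σ' k' D| ≤ w)
    (h3 : |(fH σ' Z : ℝ) - s' * fL σ' k' Z| ≤ w) :
    |(fH σ Z : ℝ) - s * fL σ k Z| ≤ 2 * (1 + S) * w + 8 * (1 + S) * w * W / b := by
  obtain ⟨p, q, hpq, hp, hq, -⟩ := exists_form hσ hk s
  obtain ⟨p', q', hpq', hp', hq', hmax⟩ := exists_form hσ' hk' s'
  rw [hpq] at h1 ⊢
  rw [hpq'] at h2 h3
  set K := 1 + S
  have hK : 0 ≤ K := by have := abs_nonneg s; linarith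
  have hw : 0 ≤ w := (abs_nonneg _).trans h1
  have hp1 : |p| ≤ K := hp.trans (by linarith)
  have hq1 : |q| ≤ K := hq.trans (by linarith)
  have hp2 : |p'| ≤ K := hp'.trans (by linarith)
  have hq2 : |q'| ≤ K := hq'.trans (by linarith)
  set det := p * q' - q * p' with hdet
  -- the determinant is small
  have d1 : |det * (D.1 : ℝ)| ≤ 2 * K * w := by
    rw [show det * (D.1 : ℝ) =
      q' * (p * D.1 + q * D.2) - q * (p' * D.1 + q' * D.2) by rw [hdet]; ring]
    refine (abs_sub _ _).trans ?_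
    rw [abs_mul, abs_mul]
    linarith [mul_le_mul hq2 h1 (abs_nonneg _) hK, mul_le_mul hq1 h2 (abs_nonneg _) hK]
  have d2 : |det * (D.2 : ℝ)| ≤ 2 * K * w := by
    rw [show det * (D.2 : ℝ) =
      p * (p' * D.1 + q' * D.2) - p' * (p * D.1 + q * D.2) by rw [hdet]; ring]
    refine (abs_sub _ _).trans ?_
    rw [abs_mul, abs_mul]
    linarith [mul_le_mul hp2 h1 (abs_nonneg _) hK, mul_le_mul hp1 h2 (abs_nonneg _) hK]
  have hn : (n1 D : ℝ) = |(D.1 : ℝ)| + |(D.2 : ℝ)| := by simp [n1]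
  have hdb : |det| * b ≤ 4 * K * w := by
    rw [abs_mul] at d1 d2
    have := mul_le_mul_of_nonneg_left hD (abs_nonneg det)
    rw [hn] at this
    nlinarith
  have hdet' : |det| ≤ 4 * K * w / b := by rwa [le_div_iff₀ hb]
  have hZn : |(Z.1 : ℝ)| + |(Z.2 : ℝ)| ≤ W := by simpa [n1] using hZ
  have hW : 0 ≤ W := le_trans (by positivity) hZn
  have goalform : 8 * K * w * W / b = 2 * (4 * K * w / b * W) := by ring
  rw [goalform]
  rcases hmax with hm | hm
  · have e : |p' * (p * Z.1 + q * Z.2)| ≤ K * w + 4 * K * w / b * W := by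
      rw [show p' * (p * (Z.1 : ℝ) + q * Z.2) =
        p * (p' * Z.1 + q' * Z.2) - det * Z.2 by rw [hdet]; ring]
      refine (abs_sub _ _).trans ?_
      rw [abs_mul, abs_mul]
      have := mul_le_mul hp1 h3 (abs_nonneg _) hK
      have := mul_le_mul hdet' (show |(Z.2 : ℝ)| ≤ W by linarith [abs_nonneg (Z.1 : ℝ)])
        (abs_nonneg _) (by positivity)
      linarith
    rw [abs_mul] at e
    have := mul_le_mul_of_nonneg_right hm (abs_nonneg (p * (Z.1 : ℝ) + q * Z.2))
    linarith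
  · have e : |q' * (p * Z.1 + q * Z.2)| ≤ K * w + 4 * K * w / b * W := by
      rw [show q' * (p * (Z.1 : ℝ) + q * Z.2) =
        q * (p' * Z.1 + q' * Z.2) + det * Z.1 by rw [hdet]; ring]
      refine (abs_add_le _ _).trans ?_
      rw [abs_mul, abs_mul]
      have := mul_le_mul hq1 h3 (abs_nonneg _) hK
      have := mul_le_mul hdet' (show |(Z.1 : ℝ)| ≤ W by linarith [abs_nonneg (Z.2 : ℝ)])
        (abs_nonneg _) (by positivity)
      linarith
    rw [abs_mul] at e
    have := mul_le_mul_of_nonneg_right hm (abs_nonneg (p * (Z.1 : ℝ) + q * Z.2))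
    linarith

end Perm

/-- The `ℓ¹` distance along a segment is at most the number of steps. -/
lemma n1_step {γ : ℤ → V} {a : ℤ} (n : ℕ)
    (hadj : ∀ m, a ≤ m → m < a + n → Adj (γ m) (γ (m + 1))) : n1 (γ (a + n) - γ a) ≤ n := by
  induction n with
  | zero => simp [n1]
  | succ n ih =>
    have h1 := ih fun m h h' => hadj m h (by push_cast; omega)
    have h2 := hadj (a + n) (by omega) (by push_cast; omega)
    simp only [Adj] at h2
    simp only [n1, Prod.fst_sub, Prod.snd_sub] at h1 ⊢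
    push_cast
    rw [← add_assoc]
    have e1 := abs_sub_le (γ (a + n + 1)).1 (γ (a + n)).1 (γ a).1
    have e2 := abs_sub_le (γ (a + n + 1)).2 (γ (a + n)).2 (γ a).2
    rw [abs_sub_comm (γ (a + n + 1)).1 (γ (a + n)).1] at e1
    rw [abs_sub_comm (γ (a + n + 1)).2 (γ (a + n)).2] at e2
    linarith

lemma n1_le_len {γ : ℤ → V} {a b : ℤ} (hab : a ≤ b)
    (hadj : ∀ m, a ≤ m → m < b → Adj (γ m) (γ (m + 1))) : n1 (γ b - γ a) ≤ b - a := by
  obtain ⟨n, rfl⟩ : ∃ n : ℕ, b = a + n := ⟨(b - a).toNat, by omega⟩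
  simpa using n1_step n hadj

lemma n1_sub_le (u z w : V) : n1 (u - w) ≤ n1 (u - z) + n1 (z - w) := by
  simp only [n1, Prod.fst_sub, Prod.snd_sub]
  have := abs_sub_le u.1 z.1 w.1
  have := abs_sub_le u.2 z.2 w.2
  linarith

lemma n1_sub_comm (u w : V) : n1 (u - w) = n1 (w - u) := by
  simp only [n1, Prod.fst_sub, Prod.snd_sub, abs_sub_comm]

lemma n1_le_of_inSq {B : ℤ} {z : V} (h : InSq B z) : n1 z ≤ 2 * B := by
  obtain ⟨h1, h2, h3, h4⟩ := h
  have := abs_le.2 ⟨h1, h2⟩
  have := abs_le.2 ⟨h3, h4⟩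
  rw [n1]; linarith

lemma inSq_of_n1 {B : ℤ} {z : V} (h : n1 z ≤ B) : InSq B z := by
  have := abs_nonneg z.1
  have := abs_nonneg z.2
  rw [n1] at h
  obtain ⟨h1, h2⟩ := abs_le.1 (show |z.1| ≤ B by linarith)
  obtain ⟨h3, h4⟩ := abs_le.1 (show |z.2| ≤ B by linarith)
  exact ⟨h1, h2, h3, h4⟩

section Levels

variable {σ : LatSym} {k c : ℤ} {γ : ℤ → V} {i₀ i₁ i j : ℤ} {R : ℕ}

/-- A crossed level is only revisited within `R` steps. -/
lemma cross_ge (hσ : SignedPerm σ) (hk : |k| ≤ 1) (h : Cross k (σ.vmap ∘ γ) i₀ i₁ c R i j)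
    (hadj : ∀ m, i₀ ≤ m → m < i₁ → Adj (γ m) (γ (m + 1))) {m : ℤ} (h1 : i ≤ m) (h2 : m ≤ i₁) :
    c - R ≤ fL σ k (γ m) := by
  rcases lt_or_ge j m with h3 | h3
  · have := h.after m h3 h2
    simp only [Function.comp] at this
    simp only [fL]
    omega
  · have hl := h.len
    have hf : fL σ k (γ i) = c := h.first
    have e := (abs_fL_le hσ hk (γ m - γ i)).trans (n1_le_len h1 fun l a b =>
      hadj l (by have := h.lo; omega) (by omega))
    rw [fL_sub hσ, hf, abs_le] at e
    omega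

lemma cross_le (hσ : SignedPerm σ) (hk : |k| ≤ 1) (h : Cross k (σ.vmap ∘ γ) i₀ i₁ c R i j)
    (hadj : ∀ m, i₀ ≤ m → m < i₁ → Adj (γ m) (γ (m + 1))) {m : ℤ} (h1 : i₀ ≤ m) (h2 : m ≤ j) :
    fL σ k (γ m) ≤ c + R := by
  rcases lt_or_ge m i with h3 | h3
  · have := h.before m h1 h3
    simp only [Function.comp] at this
    simp only [fL]
    omega
  · have hl := h.len
    have hf : fL σ k (γ i) = c := h.first
    have e := (abs_fL_le hσ hk (γ m - γ i)).trans (n1_le_len h3 fun l a b =>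
      hadj l (by have := h.lo; omega) (by have := h.hi; omega))
    rw [fL_sub hσ, hf, abs_le] at e
    omega

end Levels

/-- A path from outside a box to strictly inside meets the boundary in between. -/
lemma exists_bd {N : ℤ} {γ : ℤ → V} {c : V} {a b : ℤ} (hab : a ≤ b)
    (hadj : ∀ m, a ≤ m → m < b → Adj (γ m) (γ (m + 1))) (hin : InSq (N - 1) (γ b - c))
    (hout : ¬ InSq N (γ a - c)) : ∃ m, a < m ∧ m < b ∧ OnBd N (γ m - c) ∧
      ∀ l, m ≤ l → l ≤ b → InSq N (γ l - c) := by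
  classical
  have hin' : InSq N (γ b - c) := by
    obtain ⟨h1, h2, h3, h4⟩ := hin
    exact ⟨by omega, by omega, by omega, by omega⟩
  have hex : ∃ n : ℕ, ¬ InSq N (γ (b - n) - c) := ⟨(b - a).toNat, by
    rwa [show b - ((b - a).toNat : ℤ) = a by omega]⟩
  set n := Nat.find hex
  have hn : ¬ InSq N (γ (b - n) - c) := Nat.find_spec hex
  have hna : n ≤ (b - a).toNat := Nat.find_le (by rwa [show b - ((b - a).toNat : ℤ) = a by omega])
  have hn0 : n ≠ 0 := by
    intro h
    rw [h] at hn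
    simp at hn
    exact hn hin'
  have hprev : ∀ l, b - n < l → l ≤ b → InSq N (γ l - c) := by
    intro l h1 h2
    by_contra hc
    exact Nat.find_min hex (show (b - l).toNat < n by omega)
      (by rwa [show b - ((b - l).toNat : ℤ) = l by omega])
  have hbd : OnBd N (γ (b - n + 1) - c) := by
    refine ⟨hprev _ (by omega) (by omega), ?_⟩
    have hs := hadj (b - n) (by omega) (by omega)
    have hp := hprev (b - n + 1) (by omega) (by omega)
    simp only [Adj] at hs
    simp only [InSq, Prod.fst_sub, Prod.snd_sub] at hn hp ⊢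
    rcases abs_cases ((γ (b - n)).1 - (γ (b - n + 1)).1) with e | e <;>
      rcases abs_cases ((γ (b - n)).2 - (γ (b - n + 1)).2) with f | f <;> omega
  refine ⟨b - n + 1, by omega, ?_, hbd, fun l h1 h2 => hprev l (by omega) h2⟩
  by_contra hc
  obtain ⟨h1, h2, h3, h4⟩ := hin
  have e : b - (n : ℤ) + 1 = b := by omega
  rw [e] at hbd
  rcases hbd.2 with h | h | h | h <;> omega

open Classical in
/-- The boundary points of the box of radius `D` around `x` within `w` of the line of slope `s`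
through `x`. -/
noncomputable def window (σ : LatSym) (k : ℤ) (s w : ℝ) (D : ℕ) (x : V) : Finset V :=
  (((Finset.Icc (-(D : ℤ)) D ×ˢ Finset.Icc (-(D : ℤ)) D).filter fun z : V =>
      OnBd D z ∧ |(fH σ z : ℝ) - s * fL σ k z| ≤ w)).image fun z => x + z

open Classical in
lemma mem_window {σ : LatSym} (hσ : SignedPerm σ) {k : ℤ} {s w : ℝ} {D : ℕ} {x z : V}
    (h1 : OnBd D (z - x))
    (h2 : |((fH σ z : ℝ) - fH σ x) - s * ((fL σ k z : ℝ) - fL σ k x)| ≤ w) :
    z ∈ window σ k s w D x := by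
  refine Finset.mem_image.2 ⟨z - x, Finset.mem_filter.2 ⟨?_, h1, ?_⟩, by simp⟩
  · obtain ⟨⟨a, b, c, d⟩, -⟩ := h1
    exact Finset.mem_product.2 ⟨Finset.mem_Icc.2 ⟨a, b⟩, Finset.mem_Icc.2 ⟨c, d⟩⟩
  · rw [fH_sub hσ, fL_sub hσ]
    push_cast
    exact h2

/-- Few integers are mapped into an interval by a steep affine function. -/
lemma card_affine_le {p e w : ℝ} (hp : 1 / 8 ≤ |p|) (S : Finset ℤ)
    (hS : ∀ m ∈ S, |p * m + e| ≤ w) : (S.card : ℝ) ≤ 16 * |w| + 2 := by
  rcases S.eq_empty_or_nonempty with rfl | hne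
  · simp; positivity
  · have h1 : S ⊆ Finset.Icc (S.min' hne) (S.max' hne) := fun m hm =>
      Finset.mem_Icc.2 ⟨S.min'_le m hm, S.le_max' m hm⟩
    have h2 := Finset.card_le_card h1
    rw [Int.card_Icc] at h2
    have hle := S.min'_le _ (S.max'_mem hne)
    have h4 : ((S.card : ℤ) : ℝ) ≤ ((S.max' hne + 1 - S.min' hne : ℤ) : ℝ) := by
      exact_mod_cast (by omega)
    have a := hS _ (S.max'_mem hne)
    have b := hS _ (S.min'_mem hne)
    have hd : |p| * ((S.max' hne : ℝ) - S.min' hne) ≤ 2 * w := by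
      have h0 : (0 : ℝ) ≤ (S.max' hne : ℝ) - S.min' hne := by
        rw [sub_nonneg]; exact_mod_cast hle
      rw [← abs_of_nonneg h0, ← abs_mul, show p * ((S.max' hne : ℝ) - S.min' hne) =
        (p * S.max' hne + e) - (p * S.min' hne + e) by ring]
      exact (abs_sub _ _).trans (by linarith)
    have h0 : (0 : ℝ) ≤ (S.max' hne : ℝ) - S.min' hne := by
      rw [sub_nonneg]; exact_mod_cast hle
    have := mul_le_mul_of_nonneg_right hp h0
    have := le_abs_self w
    push_cast at h4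
    linarith

open Classical in
lemma card_window_le {σ : LatSym} (hσ : SignedPerm σ) {k : ℤ} (hk : k = 0 ∨ k = 1) {s w : ℝ}
    {D : ℕ} (hw : 4 * w < D) (x : V) :
    ((window σ k s w D x).card : ℝ) ≤ 4 * (16 * |w| + 2) := by
  obtain ⟨p, q, hpq, -, -, hmax⟩ := exists_form hσ hk s
  set S := (Finset.Icc (-(D : ℤ)) D ×ˢ Finset.Icc (-(D : ℤ)) D).filter fun z : V =>
      OnBd D z ∧ |(fH σ z : ℝ) - s * fL σ k z| ≤ w
  have hcard : (window σ k s w D x).card ≤ S.card := Finset.card_image_le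
  have side2 : ∀ e : ℤ, |e| = D →
      (((S.filter fun z => z.2 = e).card : ℕ) : ℝ) ≤ 16 * |w| + 2 := by
    intro e he
    have hb : ∀ z ∈ S.filter (fun z => z.2 = e), |p * z.1 + q * e| ≤ w ∧ |(z.1 : ℝ)| ≤ D := by
      intro z hz
      obtain ⟨hzS, rfl⟩ := Finset.mem_filter.1 hz
      obtain ⟨hz', hz3⟩ := Finset.mem_filter.1 hzS
      have hz2 := hz3.2
      rw [hpq] at hz2
      have := Finset.mem_Icc.1 (Finset.mem_product.1 hz').1
      exact ⟨hz2, by exact_mod_cast abs_le.2 this⟩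
    rcases le_or_gt (1 / 8) |p| with hp | hp
    · have hinj : Set.InjOn Prod.fst ((S.filter fun z => z.2 = e : Finset V) : Set V) := by
        intro z hz z' hz' h
        exact Prod.ext h ((Finset.mem_filter.1 hz).2.trans (Finset.mem_filter.1 hz').2.symm)
      rw [← Finset.card_image_of_injOn hinj]
      refine card_affine_le (e := q * e) (w := w) hp _ fun m hm => ?_
      obtain ⟨z, hz, rfl⟩ := Finset.mem_image.1 hm
      exact (hb z hz).1
    · have hz0 : S.filter (fun z => z.2 = e) = ∅ := by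
        refine Finset.eq_empty_of_forall_notMem fun z hz => ?_
        obtain ⟨h1, h2⟩ := hb z hz
        have hq : 1 / 2 ≤ |q| := hmax.resolve_left (by linarith)
        have he' : |(e : ℝ)| = D := by exact_mod_cast he
        have h3 := abs_sub (p * (z.1 : ℝ) + q * e) (p * z.1)
        rw [add_sub_cancel_left, abs_mul, abs_mul, he'] at h3
        have := mul_le_mul hp.le h2 (abs_nonneg _) (by norm_num)
        have := mul_le_mul_of_nonneg_right hq (Nat.cast_nonneg D : (0 : ℝ) ≤ D)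
        linarith
      rw [hz0]; simp; positivity
  have side1 : ∀ e : ℤ, |e| = D →
      (((S.filter fun z => z.1 = e).card : ℕ) : ℝ) ≤ 16 * |w| + 2 := by
    intro e he
    have hb : ∀ z ∈ S.filter (fun z => z.1 = e), |q * z.2 + p * e| ≤ w ∧ |(z.2 : ℝ)| ≤ D := by
      intro z hz
      obtain ⟨hzS, rfl⟩ := Finset.mem_filter.1 hz
      obtain ⟨hz', hz3⟩ := Finset.mem_filter.1 hzS
      have hz2 := hz3.2
      rw [hpq, add_comm] at hz2
      have := Finset.mem_Icc.1 (Finset.mem_product.1 hz').2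
      exact ⟨hz2, by exact_mod_cast abs_le.2 this⟩
    rcases le_or_gt (1 / 8) |q| with hp | hp
    · have hinj : Set.InjOn Prod.snd ((S.filter fun z => z.1 = e : Finset V) : Set V) := by
        intro z hz z' hz' h
        exact Prod.ext ((Finset.mem_filter.1 hz).2.trans (Finset.mem_filter.1 hz').2.symm) h
      rw [← Finset.card_image_of_injOn hinj]
      refine card_affine_le (e := p * e) (w := w) hp _ fun m hm => ?_
      obtain ⟨z, hz, rfl⟩ := Finset.mem_image.1 hm
      exact (hb z hz).1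
    · have hz0 : S.filter (fun z => z.1 = e) = ∅ := by
        refine Finset.eq_empty_of_forall_notMem fun z hz => ?_
        obtain ⟨h1, h2⟩ := hb z hz
        have hq : 1 / 2 ≤ |p| := hmax.resolve_right (by linarith)
        have he' : |(e : ℝ)| = D := by exact_mod_cast he
        have h3 := abs_sub (q * (z.2 : ℝ) + p * e) (q * z.2)
        rw [add_sub_cancel_left, abs_mul, abs_mul, he'] at h3
        have := mul_le_mul hp.le h2 (abs_nonneg _) (by norm_num)
        have := mul_le_mul_of_nonneg_right hq (Nat.cast_nonneg D : (0 : ℝ) ≤ D)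
        linarith
      rw [hz0]; simp; positivity
  have hsub : S ⊆ (S.filter fun z => z.2 = (D : ℤ)) ∪ (S.filter fun z => z.2 = -(D : ℤ)) ∪
      ((S.filter fun z => z.1 = (D : ℤ)) ∪ (S.filter fun z => z.1 = -(D : ℤ))) := by
    intro z hz
    obtain ⟨-, hbd, -⟩ := Finset.mem_filter.1 hz
    rcases hbd.2 with h | h | h | h <;> simp [Finset.mem_filter, hz, h]
  have h5 := (Finset.card_le_card hsub).trans ((Finset.card_union_le _ _).trans
    (Nat.add_le_add (Finset.card_union_le _ _) (Finset.card_union_le _ _)))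
  have h6 : ((S.card : ℕ) : ℝ) ≤ _ := Nat.cast_le.2 h5
  push_cast at h6
  have hDabs : |(D : ℤ)| = D ∧ |-(D : ℤ)| = D := by simp
  have := side2 D hDabs.1
  have := side2 (-D) hDabs.2
  have := side1 D hDabs.1
  have := side1 (-D) hDabs.2
  have : ((window σ k s w D x).card : ℝ) ≤ (S.card : ℝ) := Nat.cast_le.2 hcard
  linarith

end Vale.Agent.P158.ForkAll
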