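import Vale.Agent.P158.ForkAll.Geom

/-!
Chords of bigeodesics through the middle of a box and the sites on their good levels, moved to the
origin of their frame.
-/

open MeasureTheory Filter

namespace Vale.Agent.P158.ForkAll

/-- The configuration seen from `x` in the frame `σ`. -/
def siteConf (σ : LatSym) (x : V) (t : Conf) : Conf := (σ.comp (shiftSym (-x))).symm.act t

/-- The path seen from `x` in the frame `σ`. -/
def sitePath (σ : LatSym) (x : V) (γ : ℤ → V) : ℤ → V := fun m => σ.vmap (γ m - x)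

lemma comp_shift_vmap (σ : LatSym) (x z : V) :
    (σ.comp (shiftSym (-x))).vmap z = σ.vmap (z - x) := by
  show σ.vmap (z + -x) = _
  rw [sub_eq_add_neg]

lemma segGeo_site (σ : LatSym) (x : V) {t : Conf} {γ : ℤ → V} {a b : ℤ}
    (h : SegGeo t γ a b) : SegGeo (siteConf σ x t) (sitePath σ x γ) a b := by
  set ψ := σ.comp (shiftSym (-x))
  have he : sitePath σ x γ = fun m => ψ.vmap (γ m) :=
    funext fun m => (comp_shift_vmap σ x (γ m)).symm
  rw [he, siteConf]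
  refine ⟨h.le, fun m h1 h2 => (ψ.adj_map _ _).2 (h.adj m h1 h2),
    fun u hu v hv e => h.inj hu hv (ψ.vmap.injective e), ?_⟩
  rw [LatSym.T_act]
  show _ = T t (ψ.vmap.symm (ψ.vmap (γ a))) (ψ.vmap.symm (ψ.vmap (γ b)))
  rw [Equiv.symm_apply_apply, Equiv.symm_apply_apply, ← h.geo]
  refine Finset.sum_congr rfl fun m hm => ?_
  obtain ⟨h1, h2⟩ := Finset.mem_Ico.1 hm
  rw [LatSym.wt_act _ _ ((ψ.adj_map _ _).2 (h.adj m h1 h2))]
  show wt t (ψ.vmap.symm (ψ.vmap (γ m))) (ψ.vmap.symm (ψ.vmap (γ (m + 1)))) = _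
  rw [Equiv.symm_apply_apply, Equiv.symm_apply_apply]

lemma segGeo_of_line {t : Conf} {γ : ℤ → V} (h : IsBigeodesic t γ) {a b : ℤ} (hab : a < b) :
    SegGeo t γ a b :=
  ⟨hab.le, fun m _ _ => h.adj m, h.inj.injOn, h.geo a b hab⟩

/-- A chord of a line through the middle of a box, with its frame. -/
structure Chord (γ₀ C r₁ ε : ℝ) (R N : ℕ) (t : Conf) (γ : ℤ → V) (i₀ i₁ : ℤ) (σ : LatSym)
    (k : ℤ) : Prop where
  line : IsBigeodesic t γ
  neg : i₀ < 0
  pos : 0 < i₁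
  inBox : ∀ m, i₀ ≤ m → m ≤ i₁ → InSq N (γ m)
  len : ((i₁ - i₀ : ℤ) : ℝ) ≤ C * N
  mem : σ ∈ frameSyms
  frame : k = 0 ∨ k = 1
  few : (({c : ℤ | |(c : ℝ)| ≤ γ₀ * N / 2 ∧ ¬∃ i j, Cross k (σ.vmap ∘ γ) i₀ i₁ c R i j ∧
    r₁ ≤ wt t (γ (i - 1)) (γ i)}.ncard : ℕ) : ℝ) ≤ ε * N

/-- The levels at which the sites are looked for. -/
noncomputable def Levels (β : ℝ) (N : ℕ) : Finset ℤ :=
  Finset.Icc ⌈4 * β * N⌉ ⌊6 * β * N⌋

/-- A level of the range crossed, together with the two levels at distance `n`, through a heavy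
edge. -/
def GoodLev (r₁ β : ℝ) (R N : ℕ) (t : Conf) (γ : ℤ → V) (i₀ i₁ : ℤ) (σ : LatSym) (k : ℤ) (n : ℕ)
    (c : ℤ) : Prop :=
  c ∈ Levels β N ∧
    (∃ i j, Cross k (σ.vmap ∘ γ) i₀ i₁ (c - n) R i j ∧ r₁ ≤ wt t (γ (i - 1)) (γ i)) ∧
    (∃ i j, Cross k (σ.vmap ∘ γ) i₀ i₁ c R i j ∧ r₁ ≤ wt t (γ (i - 1)) (γ i)) ∧
    (∃ i j, Cross k (σ.vmap ∘ γ) i₀ i₁ (c + n) R i j ∧ r₁ ≤ wt t (γ (i - 1)) (γ i))

variable {γ₀ C r₁ ε β : ℝ} {R N n : ℕ} {t : Conf} {γ : ℤ → V} {i₀ i₁ : ℤ} {σ : LatSym} {k : ℤ}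

lemma Chord.perm (h : Chord γ₀ C r₁ ε R N t γ i₀ i₁ σ k) : SignedPerm σ :=
  signedPerm_of_mem h.mem

lemma Chord.abs_frame (h : Chord γ₀ C r₁ ε R N t γ i₀ i₁ σ k) : |k| ≤ 1 := by
  rcases h.frame with rfl | rfl <;> simp

lemma mem_Levels {c : ℤ} (hc : c ∈ Levels β N) :
    4 * β * N ≤ (c : ℝ) ∧ (c : ℝ) ≤ 6 * β * N := by
  obtain ⟨h1, h2⟩ := Finset.mem_Icc.1 hc
  exact ⟨Int.ceil_le.1 h1, Int.le_floor.1 h2⟩

open Classical in
/-- Most levels of the range are good. -/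
lemma card_good (h : Chord γ₀ C r₁ ε R N t γ i₀ i₁ σ k) (hβ : 0 ≤ β)
    (hn : (n : ℝ) + 6 * β * N ≤ γ₀ * N / 2) :
    2 * β * N - 1 - 3 * (ε * N) ≤
      (((Levels β N).filter (GoodLev r₁ β R N t γ i₀ i₁ σ k n)).card : ℝ) := by
  set bad := {c : ℤ | |(c : ℝ)| ≤ γ₀ * N / 2 ∧ ¬∃ i j, Cross k (σ.vmap ∘ γ) i₀ i₁ c R i j ∧
    r₁ ≤ wt t (γ (i - 1)) (γ i)} with hbad
  have hfin : bad.Finite := (Set.finite_Icc ⌈-(γ₀ * N / 2)⌉ ⌊γ₀ * N / 2⌋).subset fun c hc =>
    ⟨Int.ceil_le.2 (abs_le.1 hc.1).1, Int.le_floor.2 (abs_le.1 hc.1).2⟩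
  set bs := hfin.toFinset
  have hbs : (bs.card : ℝ) ≤ ε * N := by
    rw [← Set.ncard_eq_toFinset_card _ hfin]
    exact h.few
  set good := (Levels β N).filter (GoodLev r₁ β R N t γ i₀ i₁ σ k n)
  have hsub : Levels β N ⊆
      good ∪ (bs.image (· + (n : ℤ)) ∪ bs ∪ bs.image (· - (n : ℤ))) := by
    intro c hc
    obtain ⟨h1, h2⟩ := mem_Levels hc
    have hc0 : (0 : ℝ) ≤ c := le_trans (by positivity) h1
    have key : ∀ d : ℤ, |(d : ℝ)| ≤ γ₀ * N / 2 → d ∉ bs →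
        ∃ i j, Cross k (σ.vmap ∘ γ) i₀ i₁ d R i j ∧ r₁ ≤ wt t (γ (i - 1)) (γ i) := by
      intro d hd hd'
      by_contra hcon
      exact hd' (hfin.mem_toFinset.2 ⟨hd, hcon⟩)
    by_cases a1 : c - n ∈ bs
    · exact Finset.mem_union_right _ (Finset.mem_union_left _ (Finset.mem_union_left _
        (Finset.mem_image.2 ⟨_, a1, by simp⟩)))
    by_cases a2 : c ∈ bs
    · exact Finset.mem_union_right _ (Finset.mem_union_left _ (Finset.mem_union_right _ a2))
    by_cases a3 : c + n ∈ bs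
    · exact Finset.mem_union_right _ (Finset.mem_union_right _
        (Finset.mem_image.2 ⟨_, a3, by simp⟩))
    have hn0 : (0 : ℝ) ≤ n := Nat.cast_nonneg n
    refine Finset.mem_union_left _ (Finset.mem_filter.2 ⟨hc, hc, key _ ?_ a1, key _ ?_ a2,
      key _ ?_ a3⟩)
    all_goals
      push_cast
      rw [abs_le]
      constructor <;> linarith
  have h5 := (Finset.card_le_card hsub).trans ((Finset.card_union_le _ _).trans
    (Nat.add_le_add_left ((Finset.card_union_le _ _).trans (Nat.add_le_add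
      ((Finset.card_union_le _ _).trans (Nat.add_le_add_right Finset.card_image_le _))
      Finset.card_image_le)) _))
  have h6 : (((Levels β N).card : ℕ) : ℝ) ≤ _ := Nat.cast_le.2 h5
  push_cast at h6
  have h7 : 2 * β * N - 1 ≤ ((Levels β N).card : ℝ) := by
    rw [Levels, Int.card_Icc]
    have e : (⌊6 * β * N⌋ + 1 - ⌈4 * β * N⌉ : ℤ) ≤
        ((⌊6 * β * N⌋ + 1 - ⌈4 * β * N⌉).toNat : ℤ) := Int.self_le_toNat _
    have e' : ((⌊6 * β * N⌋ + 1 - ⌈4 * β * N⌉ : ℤ) : ℝ) ≤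
        (((⌊6 * β * N⌋ + 1 - ⌈4 * β * N⌉).toNat : ℤ) : ℝ) := by exact_mod_cast e
    push_cast at e'
    have := Int.ceil_lt_add_one (4 * β * N)
    have := Int.lt_floor_add_one (6 * β * N)
    linarith
  linarith

/-- A good level of a chord carries a site to the right of the middle. -/
lemma exists_site (h : Chord γ₀ C r₁ ε R N t γ i₀ i₁ σ k) {C₂ : ℝ} (hC₂ : C * N ≤ C₂ * n)
    {B : ℤ} (hB : InSq B (γ 0)) (hBR : (R : ℝ) + 2 * B < 4 * β * N) (hnR : R < n) {c : ℤ}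
    (hg : GoodLev r₁ β R N t γ i₀ i₁ σ k n c) :
    ∃ a b i j : ℤ, 0 < i ∧ i ≤ i₁ ∧ fL σ k (γ i) = c ∧ i₀ ≤ a ∧ a < i ∧ b ≤ i₁ ∧
      fL σ k (γ a) = c - n ∧
      SiteSeg k R r₁ C₂ n n (siteConf σ (γ i) t) (sitePath σ (γ i) γ) a b i j ∧
      ∀ m, i₀ ≤ m → m ≤ i₁ → c - n + R < fL σ k (γ m) → fL σ k (γ m) < c + n - R →
        a ≤ m ∧ m ≤ b := by
  obtain ⟨hc, ⟨ia, a, hA, -⟩, ⟨i, j, hI, hw⟩, ⟨b, jb, hB', -⟩⟩ := hg
  have hσ := h.perm
  have hk := h.abs_frame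
  have hadj : ∀ m, i₀ ≤ m → m < i₁ → Adj (γ m) (γ (m + 1)) := fun m _ _ => h.line.adj m
  have fi : fL σ k (γ i) = c := hI.first
  have fa : fL σ k (γ a) = c - n := hA.last
  have fb : fL σ k (γ b) = c + n := hB'.first
  have hnR' : (R : ℤ) < n := by exact_mod_cast hnR
  have hlo := hI.lo; have hle := hI.le; have hhi := hI.hi
  have halo := hA.lo; have hale := hA.le; have hahi := hA.hi
  have hblo := hB'.lo; have hble := hB'.le; have hbhi := hB'.hi
  have hai : a < i := by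
    by_contra hc'
    have := cross_ge hσ hk hI hadj (not_lt.1 hc') hahi.le
    omega
  have hjb : j < b := by
    by_contra hc'
    have := cross_le hσ hk hI hadj hblo.le (not_lt.1 hc')
    omega
  have hi0 : 0 < i := by
    by_contra hc'
    have h1 := cross_ge hσ hk hI hadj (not_lt.1 hc') h.pos.le
    have h2 := (le_abs_self _).trans ((abs_fL_le hσ hk (γ 0)).trans (n1_le_of_inSq hB))
    have h3 : ((c - R : ℤ) : ℝ) ≤ ((2 * B : ℤ) : ℝ) := by exact_mod_cast h1.trans h2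
    push_cast at h3
    have := (mem_Levels hc).1
    linarith
  have lev_site : ∀ m, lev k (sitePath σ (γ i) γ m) = fL σ k (γ m) - c := fun m => by
    rw [← fi, ← fL_sub hσ]; rfl
  have inside : ∀ m, i₀ ≤ m → m ≤ i₁ → c - n + R < fL σ k (γ m) → fL σ k (γ m) < c + n - R →
      a ≤ m ∧ m ≤ b := fun m h1 h2 h3 h4 => by
    constructor
    · by_contra hc'
      have := cross_le hσ hk hA hadj h1 (not_le.1 hc').le
      omega
    · by_contra hc'
      have := cross_ge hσ hk hB' hadj (not_le.1 hc').le h2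
      omega
  have slope : ∀ m m', i₀ ≤ m → m ≤ m' → m' ≤ i₁ →
      |((fH σ (γ m') - fH σ (γ m) : ℤ) : ℝ)| ≤ C₂ * n := fun m m' h1 h2 h3 => by
    have e := ((abs_fH_le hσ (γ m' - γ m)).trans (n1_le_len h2 fun l _ _ => h.line.adj l))
    rw [fH_sub hσ] at e
    have e' : ((|fH σ (γ m') - fH σ (γ m)| : ℤ) : ℝ) ≤ ((i₁ - i₀ : ℤ) : ℝ) := by
      exact_mod_cast e.trans (by omega)
    rw [Int.cast_abs] at e'
    linarith [h.len]
  refine ⟨a, b, i, j, hi0, by omega, fi, by omega, hai, by omega, fa, ?_, inside⟩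
  constructor
  case seg => exact segGeo_site σ _ (segGeo_of_line h.line (by omega))
  case origin =>
    show σ.vmap (γ i - γ i) = 0
    rw [sub_self]
    obtain ⟨p, q, u, v, hpq, -⟩ := hσ
    rw [hpq]; simp
  case heavy =>
    set ψ := σ.comp (shiftSym (-γ i))
    show r₁ ≤ wt (ψ.symm.act t) (sitePath σ (γ i) γ (i - 1)) (sitePath σ (γ i) γ i)
    simp only [sitePath, ← comp_shift_vmap]
    have hh := h.line.adj (i - 1)
    rw [sub_add_cancel] at hh
    rw [LatSym.wt_act _ _ ((ψ.adj_map _ _).2 hh)]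
    show r₁ ≤ wt t (ψ.vmap.symm (ψ.vmap (γ (i - 1)))) (ψ.vmap.symm (ψ.vmap (γ i)))
    rw [Equiv.symm_apply_apply, Equiv.symm_apply_apply]
    exact hw
  case cross =>
    refine ⟨hai, hle, hjb, hI.len, ?_, ?_, fun m h1 h2 => ?_, fun m h1 h2 => ?_⟩
    · rw [lev_site, fi, sub_self]
    · rw [lev_site, show fL σ k (γ j) = c from hI.last, sub_self]
    · have := hI.before m (by omega) h2
      simp only [Function.comp] at this
      rw [lev_site, fL]
      omega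
    · have := hI.after m h1 (by omega)
      simp only [Function.comp] at this
      rw [lev_site, fL]
      omega
  case lev₀ => rw [lev_site, fa]; ring
  case lev₁ => rw [lev_site, fb]; ring
  case strip =>
    intro m h1 h2
    rw [lev_site]
    constructor
    · rcases h1.lt_or_eq with h1 | rfl
      · have := hA.after m h1 (by omega)
        simp only [Function.comp] at this
        rw [fL]
        omega
      · rw [fa]; omega
    · rcases h2.lt_or_eq with h2 | rfl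
      · have := hB'.before m (by omega) h2
        simp only [Function.comp] at this
        rw [fL]
        omega
      · rw [fb]; omega
  case slope₀ =>
    show |((fH σ (γ a - γ i) : ℤ) : ℝ)| ≤ _
    rw [fH_sub hσ, ← neg_sub, Int.cast_neg, abs_neg]
    exact slope a i (by omega) hai.le (by omega)
  case slope₁ =>
    show |((fH σ (γ b - γ i) : ℤ) : ℝ)| ≤ _
    rw [fH_sub hσ]
    exact slope i b (by omega) (by omega) (by omega)

end Vale.Agent.P158.ForkAll
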