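import Vale.Agent.P158.ForkAll.Band
import Vale.Agent.P158.Meas

/-!
A good level on the forward half of a line through the middle of a box gives a site; the site is
wild, or the line stays in a tube of one of the grid slopes.
-/

open MeasureTheory Finset

namespace Vale.Agent.P158.ForkAll

/-- The configuration seen from `x` in the frame `σ`. -/
def pre (σ : LatSym) (x : V) (t : Conf) : Conf := shift (σ.vmap x) (σ.symm.act t)

/-- Slopes of the grid of step `ρ`. -/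
noncomputable def gridS (Cs ρ : ℝ) (u : ℕ) : ℝ := -Cs + ρ * u

/-- The indices of the slope units. -/
noncomputable def units (Cs ρ : ℝ) : Finset ℕ :=
  (range (⌈2 * Cs / ρ⌉₊ + 1)).filter fun u => 2 ≤ u ∧ gridS Cs ρ u + 2 * ρ ≤ Cs

/-- `x` is a wild site in the frame. -/
def wildEv (σ : LatSym) (k : ℤ) (R : ℕ) (r₁ Cs ρ : ℝ) (b : ℕ) (x : V) : Set Conf :=
  pre σ x ⁻¹' wildSite k R r₁ Cs ρ (15 * b)

/-- `x` is a site of the slope unit `u` in the frame. -/
def slopeEv (σ : LatSym) (k : ℤ) (R : ℕ) (r₁ Cs ρ : ℝ) (b u : ℕ) (x : V) : Set Conf :=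
  pre σ x ⁻¹' slopeSite k R r₁ Cs (15 * b) (gridS Cs ρ u - 2 * ρ) (gridS Cs ρ u + 2 * ρ)

lemma isBigeodesic_pre {t : Conf} {γ : ℤ → V} (hg : IsBigeodesic t γ) (σ : LatSym) (x : V) :
    IsBigeodesic (pre σ x t) fun m => σ.vmap (γ m) - σ.vmap x := by
  refine (isBigeodesic_shift _ _ _).2 ?_
  simp only [sub_add_cancel]
  refine (σ.symm.isBigeodesic_act t _).2 ?_
  simpa [LatSym.symm] using hg

lemma wt_pre {t : Conf} {u w : V} (h : Adj u w) (σ : LatSym) (x : V) :
    wt (pre σ x t) (σ.vmap u - σ.vmap x) (σ.vmap w - σ.vmap x) = wt t u w := by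
  have h1 : Adj (σ.vmap u) (σ.vmap w) := (σ.adj_map u w).2 h
  rw [pre, shift_eq_act, LatSym.wt_act]
  · simp only [shiftSym_vmap, sub_add_cancel]
    rw [σ.symm.wt_act t h1]
    simp [LatSym.symm]
  · simpa [Adj] using h1

lemma abs_step {t : Conf} {γ : ℤ → V} (hg : IsBigeodesic t γ) (i : ℤ) : ∀ n : ℕ,
    |(γ (i + n)).1 - (γ i).1| + |(γ (i + n)).2 - (γ i).2| ≤ n
  | 0 => by simp
  | n + 1 => by
    have h := abs_step hg i n
    have h' : |(γ (i + n)).1 - (γ (i + n + 1)).1| + |(γ (i + n)).2 - (γ (i + n + 1)).2| = 1 :=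
      hg.adj (i + n)
    rw [show i + ((n + 1 : ℕ) : ℤ) = i + n + 1 by push_cast; ring]
    have := abs_sub_le (γ (i + n + 1)).1 (γ (i + n)).1 (γ i).1
    have := abs_sub_le (γ (i + n + 1)).2 (γ (i + n)).2 (γ i).2
    rw [abs_sub_comm (γ (i + n)).1 (γ (i + n + 1)).1,
      abs_sub_comm (γ (i + n)).2 (γ (i + n + 1)).2] at h'
    push_cast
    omega

lemma abs_dist {t : Conf} {γ : ℤ → V} (hg : IsBigeodesic t γ) {i j : ℤ} (h : i ≤ j) :
    |(γ j).1 - (γ i).1| + |(γ j).2 - (γ i).2| ≤ j - i := by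
  obtain ⟨n, hn⟩ : ∃ n : ℕ, j = i + n := ⟨(j - i).toNat, by omega⟩
  subst hn
  have := abs_step hg i n
  omega

/-- The level changes by at most the number of steps. -/
lemma lev_dist {t : Conf} {γ : ℤ → V} (hg : IsBigeodesic t γ) {σ : LatSym} (hσ : σ ∈ frameSyms)
    {k : ℤ} (hk : k = 0 ∨ k = 1) {i j : ℤ} (h : i ≤ j) :
    |lev k (σ.vmap (γ j)) - lev k (σ.vmap (γ i))| ≤ j - i ∧
      |(σ.vmap (γ j)).2 - (σ.vmap (γ i)).2| ≤ j - i :=
  ⟨(abs_lev_sub_le hσ hk _ _).1.trans (abs_dist hg h),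
    (abs_lev_sub_le hσ hk _ _).2.trans (abs_dist hg h)⟩

lemma exists_unit {Cs ρ s : ℝ} (hρ : 0 < ρ) (hρ1 : ρ ≤ 1) (hs : |s| ≤ Cs - 3) :
    ∃ u ∈ units Cs ρ, |s - gridS Cs ρ u| ≤ ρ := by
  obtain ⟨h1, h2⟩ := abs_le.1 hs
  have h0 : 0 ≤ (s + Cs) / ρ := div_nonneg (by linarith) hρ.le
  set u := ⌊(s + Cs) / ρ⌋₊
  have hu1 : (u : ℝ) * ρ ≤ s + Cs := (le_div_iff₀ hρ).1 (Nat.floor_le h0)
  have hu2 : s + Cs < ((u : ℝ) + 1) * ρ := (div_lt_iff₀ hρ).1 (Nat.lt_floor_add_one _)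
  refine ⟨u, mem_filter.2 ⟨mem_range.2 (Nat.lt_succ_of_le ?_), ?_, ?_⟩, ?_⟩
  · refine (Nat.floor_le_floor (div_le_div_of_nonneg_right (by linarith) hρ.le)).trans
      (Nat.floor_le_ceil _)
  · refine Nat.le_floor ?_
    rw [le_div_iff₀ hρ]
    push_cast
    linarith
  · simp only [gridS]
    linarith
  · simp only [gridS, abs_le]
    constructor <;> linarith

/-- A good level of a line gives a site. -/
theorem site_of_cross {t : Conf} {γ : ℤ → V} {σ : LatSym} {k : ℤ} {R b : ℕ}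
    {r₁ Cs ρ Cl : ℝ} {i₀ i₁ c c' e i j i' j' : ℤ}
    (hσ : σ ∈ frameSyms) (hk : k = 0 ∨ k = 1) (hg : IsBigeodesic t γ) (hR : 2 * R < b)
    (hρ : 0 < ρ) (hρ1 : ρ ≤ 1) (hCs : Cl + 4 ≤ Cs) (hCl : 0 ≤ Cl)
    (hv : InSq b (γ 0)) (_he : e ≤ 0) (hbox : ∀ m, e ≤ m → m ≤ 0 → InSq (4 * b) (γ m))
    (h₀ : i₀ ≤ 0) (h₁ : 0 ≤ i₁) (hL : ((i₁ - i₀ : ℤ) : ℝ) ≤ Cl * b)
    (hl₀ : lev k (σ.vmap (γ i₀)) ≤ -(32 * (b : ℤ)))
    (hl₁ : 32 * (b : ℤ) ≤ lev k (σ.vmap (γ i₁)))
    (hc : 4 * (b : ℤ) ≤ c ∧ c ≤ 6 * b) (hc' : -(9 * (b : ℤ)) ≤ c' ∧ c' ≤ -(4 * (b : ℤ)))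
    (hx : Cross k (σ.vmap ∘ γ) i₀ i₁ c R i j) (hx' : Cross k (σ.vmap ∘ γ) i₀ i₁ c' R i' j')
    (hheavy : r₁ ≤ wt t (γ (i - 1)) (γ i)) :
    0 < i ∧ i < i₁ ∧
      (t ∈ wildEv σ k R r₁ Cs ρ b (γ i) ∨ ∃ u ∈ units Cs ρ, t ∈ slopeEv σ k R r₁ Cs ρ b u (γ i) ∧
        ∀ m, e ≤ m → m ≤ i → |off σ k (gridS Cs ρ u) (γ m) (γ i)| ≤ 30 * ρ * b) := by
  set f : ℤ → ℤ := fun m => lev k (σ.vmap (γ m)) with hf
  have hstep : ∀ m m', m ≤ m' → |f m' - f m| ≤ m' - m := fun m m' h => (lev_dist hg hσ hk h).1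
  have hfi : f i = c := hx.first
  have hfj : f j = c := hx.last
  have hbe : ∀ m, i₀ ≤ m → m < i → f m < c := hx.before
  have haf : ∀ m, j < m → m ≤ i₁ → c < f m := hx.after
  have hfi' : f i' = c' := hx'.first
  have hbe' : ∀ m, i₀ ≤ m → m < i' → f m < c' := hx'.before
  have haf' : ∀ m, j' < m → m ≤ i₁ → c' < f m := hx'.after
  obtain ⟨⟨hi0, hij, hji, hlen⟩, hlen'⟩ := And.intro (And.intro hx.lo
    (And.intro hx.le (And.intro hx.hi hx.len))) hx'.len
  have hij' := hx'.le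
  have hf0 := abs_le.1 (lev_vmap_le hσ hk hv)
  have hipos : 0 < i := by
    by_contra! hi
    rcases lt_or_ge j 0 with h | h
    · have := haf 0 h h₁
      simp only [hf] at this
      omega
    · have := abs_le.1 (hstep i 0 hi)
      simp only [hf] at this hfi
      omega
  have hi' : j' < 0 := by
    by_contra! h
    rcases lt_or_ge 0 i' with h' | h'
    · have := hbe' 0 h₀ h'
      simp only [hf] at this
      omega
    · have := abs_le.1 (hstep i' 0 h')
      simp only [hf] at this hfi'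
      omega
  refine ⟨hipos, by omega, ?_⟩
  set n : ℤ := 15 * (b : ℤ) with hn
  obtain ⟨a, ⟨ha1, ha2⟩, hamax⟩ := Int.exists_greatest_of_bdd
    (P := fun m => m ≤ i ∧ f m ≤ c - n) ⟨i, fun m hm => hm.1⟩
    ⟨i₀, by omega, by show f i₀ ≤ _; simp only [hf]; omega⟩
  obtain ⟨q, ⟨hq1, hq2⟩, hqmin⟩ := Int.exists_least_of_bdd
    (P := fun m => i ≤ m ∧ c + n ≤ f m) ⟨i, fun m hm => hm.1⟩
    ⟨i₁, by omega, by show _ ≤ f i₁; simp only [hf]; omega⟩
  have hai : a < i := by
    rcases lt_or_eq_of_le ha1 with h | h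
    · exact h
    · subst h; omega
  have hiq : i < q := by
    rcases lt_or_eq_of_le hq1 with h | h
    · exact h
    · subst h; omega
  have hfa : f a = c - n := by
    have h := abs_le.1 (hstep a (a + 1) (by omega))
    rcases lt_or_eq_of_le ha2 with h' | h'
    · have := hamax (a + 1) ⟨by omega, by omega⟩
      omega
    · exact h'
  have hfq : f q = c + n := by
    have h := abs_le.1 (hstep (q - 1) q (by omega))
    rcases lt_or_eq_of_le hq2 with h' | h'
    · have := hqmin (q - 1) ⟨by omega, by omega⟩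
      omega
    · exact h'.symm
  have ha0 : i₀ ≤ a := hamax i₀ ⟨by omega, by show f i₀ ≤ _; simp only [hf]; omega⟩
  have hq0 : q ≤ i₁ := hqmin i₁ ⟨by omega, by show _ ≤ f i₁; simp only [hf]; omega⟩
  have hae : a < e := by
    by_contra! h
    rcases le_or_gt a 0 with h' | h'
    · have := abs_le.1 (lev_vmap_le hσ hk (hbox a h h'))
      simp only [hf] at hfa
      omega
    · have := haf' a (by omega) (by omega)
      omega
  have hjq : j < q := by
    by_contra! h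
    have := abs_le.1 (hstep i q (by omega))
    omega
  set η : ℤ → V := fun m => σ.vmap (γ m) - σ.vmap (γ i) with hη
  have hη1 : ∀ m, lev k (η m) = f m - c := fun m => by
    simp only [hη, hf, ← hfi, lev, Prod.fst_sub, Prod.snd_sub]
    ring
  have hη2 : ∀ m, ((η m).2 : ℝ) = ((σ.vmap (γ m)).2 : ℝ) - (σ.vmap (γ i)).2 := fun m => by
    simp [hη]
  have hbig : IsBigeodesic (pre σ (γ i) t) η := isBigeodesic_pre hg σ (γ i)
  have hnb : ((15 * b : ℕ) : ℤ) = n := by push_cast; rfl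
  have hend : ∀ m, i₀ ≤ m → m ≤ i₁ → |((η m).2 : ℝ)| ≤ Cl * b := by
    intro m h h'
    refine le_trans ?_ hL
    rw [hη2]
    have key : |(σ.vmap (γ m)).2 - (σ.vmap (γ i)).2| ≤ i₁ - i₀ := by
      rcases le_total m i with hmi | hmi
      · rw [abs_sub_comm]
        exact (lev_dist hg hσ hk hmi).2.trans (by omega)
      · exact (lev_dist hg hσ hk hmi).2.trans (by omega)
    exact_mod_cast key
  have hsite : SiteSeg k R r₁ Cs (15 * b) (15 * b) (pre σ (γ i) t) η a q i j := by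
    have hslope : ∀ m, i₀ ≤ m → m ≤ i₁ → |((η m).2 : ℝ)| ≤ Cs * ((15 * b : ℕ) : ℝ) := by
      intro m h h'
      refine (hend m h h').trans ?_
      push_cast
      nlinarith [(Nat.cast_nonneg b : (0 : ℝ) ≤ b)]
    refine
      { seg := ⟨by omega, fun m _ _ => hbig.adj m, hbig.inj.injOn, hbig.geo a q (by omega)⟩
        cross := ⟨hai, hij, hjq, hlen, ?_, ?_, ?_, ?_⟩
        origin := by simp [hη]
        heavy := ?_
        lev₀ := by rw [hη1, hnb]; omega
        lev₁ := by rw [hη1, hnb]; omega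
        strip := ?_
        slope₀ := hslope a ha0 (by omega)
        slope₁ := hslope q (by omega) hq0 }
    · rw [hη1]; omega
    · rw [hη1]; omega
    · intro m h h'
      rw [hη1]
      have := hbe m (by omega) h'
      omega
    · intro m h h'
      rw [hη1]
      have := haf m h (by omega)
      omega
    · rw [hη]
      simp only
      rw [wt_pre ?_ σ (γ i)]
      · exact hheavy
      · simpa using hg.adj (i - 1)
    · intro m h h'
      rw [hη1, hnb]
      rcases lt_trichotomy m i with hm | hm | hm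
      · have := hbe m (by omega) hm
        have : c - n ≤ f m := by
          rcases eq_or_lt_of_le h with rfl | h2
          · omega
          · by_contra! h3
            have := hamax m ⟨hm.le, h3.le⟩
            omega
        omega
      · subst hm; omega
      · have : f m ≤ c + n := by
          rcases eq_or_lt_of_le h' with rfl | h2
          · omega
          · by_contra! h3
            have := hqmin m ⟨hm.le, h3.le⟩
            omega
        have : c - n ≤ f m := by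
          rcases lt_or_ge j m with h2 | h2
          · have := haf m h2 (by omega)
            omega
          · have := abs_le.1 (hstep i m hm.le)
            omega
        omega
  by_cases hw : t ∈ wildEv σ k R r₁ Cs ρ b (γ i)
  · exact Or.inl hw
  refine Or.inr ?_
  have hw' : ∃ s : ℝ, |s| ≤ Cs ∧ ∀ m, a ≤ m → m ≤ q →
      |((η m).2 : ℝ) - s * lev k (η m)| ≤ ρ * ((15 * b : ℕ) : ℝ) := by
    by_contra! hne
    exact hw ⟨η, a, q, i, j, hsite, fun s hs => hne s hs⟩
  obtain ⟨s, -, htube⟩ := hw'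
  have hTa := htube a le_rfl (by omega)
  have hTq := htube q (by omega) le_rfl
  rw [hη1, hfa, show c - n - c = -n by ring] at hTa
  rw [hη1, hfq, show c + n - c = n by ring] at hTq
  push_cast [hn] at hTa hTq
  obtain ⟨hTa1, hTa2⟩ := abs_le.1 hTa
  obtain ⟨hTq1, hTq2⟩ := abs_le.1 hTq
  have hb : (1 : ℝ) ≤ b := by exact_mod_cast (show 1 ≤ b by omega)
  obtain ⟨he1, he2⟩ := abs_le.1 (hend a ha0 (by omega))
  have hs : |s| ≤ Cs - 3 := by
    have h15 : (0 : ℝ) < 15 * b := by linarith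
    have hup : Cl * (b : ℝ) + ρ * (15 * b) ≤ (Cs - 3) * (15 * b) := by nlinarith
    rw [abs_le]
    constructor
    · refine le_of_mul_le_mul_right ?_ h15
      linarith
    · refine le_of_mul_le_mul_right ?_ h15
      linarith
  obtain ⟨u, hu, hsu⟩ := exists_unit hρ hρ1 hs
  obtain ⟨hsu1, hsu2⟩ := abs_le.1 hsu
  refine ⟨u, hu, ⟨η, a, q, i, j, hsite, ?_, ?_, ?_, ?_⟩, fun m hm hm' => ?_⟩
  iterate 4
    push_cast
    nlinarith
  have hT := htube m (by omega) (by omega)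
  rw [hη1, hη2] at hT
  push_cast at hT
  have hlev : |(f m : ℝ) - c| ≤ 15 * b := by
    have h1 : |f m - c| ≤ 15 * (b : ℤ) := by
      have := hsite.strip m (by omega) (by omega)
      rw [hη1, hnb] at this
      rw [abs_le]
      omega
    exact_mod_cast h1
  have h2 : off σ k (gridS Cs ρ u) (γ m) (γ i) =
      ((σ.vmap (γ m)).2 : ℝ) - (σ.vmap (γ i)).2 - s * ((f m : ℝ) - c) +
        (s - gridS Cs ρ u) * ((f m : ℝ) - c) := by
    simp only [off, hf, ← hfi]
    ring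
  rw [h2]
  refine (abs_add_le _ _).trans ?_
  rw [abs_mul]
  nlinarith [mul_le_mul hsu hlev (abs_nonneg _) hρ.le]

end Vale.Agent.P158.ForkAll
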